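import Vale.Agent.P252.Rigidity.Three.Defs
import Vale.Agent.P252.Rigidity.Conclude
import Vale.Agent.P252.Rigidity.Complete
import Vale.Agent.P252.Rigidity.IntParts
import Vale.Agent.P252.Rigidity.Limit

/-!
# Affine maximal functions: from the divergence inequality to rigidity

An inequality `ε η^a Q^p - C η^(a-p) ≤ ∑ᵢ ∂ᵢ (η^m fᵢ)` on `{v < R}`, `η = R - v`, `p > n`, for
the gaps `v = u - tangent` gives `∫_{v ≤ R/2} Q^p ≤ C R^(-p) (1+R)^n`, hence `Q = 0`: the Hessian
determinant is constant.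
-/

namespace Vale.Agent.P252.Three

open scoped ContDiff Topology Matrix
open MeasureTheory Filter Finset Rigidity

noncomputable section

variable {n : ℕ} {W : Set (Fin n → ℝ)} {u : (Fin n → ℝ) → ℝ}

namespace AM

variable (h : AM W u)
include h

lemma det_pos {y : Fin n → ℝ} (hy : y ∈ W) : 0 < (hess u y).det := (h.pos y hy).det_pos

lemma msm_hinv : MSm W (hinv u) :=
  msm_inv (msm_hess h.isOpen h.sm) fun _ hy => (h.det_pos hy).ne'

lemma sm_logDet : Sm W (logDet u) :=
  ContDiffOn.log (sm_det (msm_hess h.isOpen h.sm)) fun _ hy => (h.det_pos hy).ne'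

lemma sm_qQ : Sm W (qQ u) :=
  sm_sum _ fun k _ => sm_sum _ fun l _ =>
    (h.msm_hinv k l).mul ((h.sm_logDet.pd h.isOpen k).mul (h.sm_logDet.pd h.isOpen l))

lemma sm_qS : Sm W (qS u) :=
  sm_sum _ fun k _ => sm_sum _ fun l _ =>
    (h.msm_hinv k l).mul ((h.sm_logDet.pd h.isOpen k).mul (h.sm.pd h.isOpen l))

lemma sm_qZ : Sm W (qZ u) :=
  sm_sum _ fun k _ => sm_sum _ fun l _ =>
    (h.msm_hinv k l).mul ((h.sm.pd h.isOpen k).mul (h.sm.pd h.isOpen l))

lemma qQ_nonneg {y : Fin n → ℝ} (hy : y ∈ W) : 0 ≤ qQ u y := by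
  have := (h.pos y hy).inv.posSemidef.dotProduct_mulVec_nonneg fun k => pd k (logDet u) y
  simpa [qQ, hinv, dotProduct, Matrix.mulVec, Finset.mul_sum, mul_comm, mul_left_comm] using this

lemma pd_logDet_eq_zero {y : Fin n → ℝ} (hy : y ∈ W) (h0 : qQ u y = 0) (k : Fin n) :
    pd k (logDet u) y = 0 := by
  by_contra hk
  have hne : (fun k => pd k (logDet u) y) ≠ 0 := fun e => hk (congrFun e k)
  have := (h.pos y hy).inv.dotProduct_mulVec_pos hne
  exact this.ne' (by
    simpa [qQ, hinv, dotProduct, Matrix.mulVec, Finset.mul_sum, mul_comm, mul_left_comm] using h0)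

/-- The equation is unchanged by subtracting the tangent. -/
lemma tangent (x₀ : Fin n → ℝ) : AM W (tangentGap u x₀) where
  isOpen := h.isOpen
  sm := contDiffOn_tangentGap h.sm
  pos y hy := by rw [hess_tangentGap h.isOpen h.sm hy]; exact h.pos y hy
  eq y hy := by
    have e : ∀ z ∈ W, affineW (tangentGap u x₀) z = affineW u z := fun z hz => by
      rw [affineW, affineW, hess_tangentGap h.isOpen h.sm hz]
    have e2 : hess (affineW (tangentGap u x₀)) y = hess (affineW u) y := by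
      ext i j
      exact pd_congr_on h.isOpen hy (fun z hz => pd_congr_on h.isOpen hz e j) i
    rw [hess_tangentGap h.isOpen h.sm hy, e2]
    exact h.eq y hy

end AM

/-- A divergence inequality for smooth fields, integrated over sections, with `p > n`. -/
def FieldIneq (n : ℕ) : Prop :=
  ∃ (m a p : ℕ) (ε C : ℝ) (f : ((Fin n → ℝ) → ℝ) → ℝ → Fin n → (Fin n → ℝ) → ℝ),
    2 ≤ m ∧ n < p ∧ p < a ∧ 0 < ε ∧ 0 ≤ C ∧
    ∀ {Ω : Set (Fin n → ℝ)} {u : (Fin n → ℝ) → ℝ}, AM Ω u → ∀ R : ℝ,
      (∀ i, Sm Ω (f u R i)) ∧ ∀ y ∈ Ω, u y < R →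
        ε * (R - u y) ^ a * qQ u y ^ p - C * (R - u y) ^ (a - p) ≤
          ∑ i, pd i (fun z => (R - u z) ^ m * f u R i z) y

/-- Such an inequality makes `D log det D²v` vanish when `v` has compact sections of volume
`O(R^n)`. -/
theorem qQ_eq_zero (hF : FieldIneq n) {v : (Fin n → ℝ) → ℝ} (hv : AM W v)
    (hnn : ∀ y ∈ W, 0 ≤ v y) {C₁ : ℝ}
    (hsec : ∀ R : ℝ, 0 ≤ R → IsCompact {x | x ∈ W ∧ v x ≤ R} ∧
      volume {x | x ∈ W ∧ v x ≤ R} ≤ ENNReal.ofReal (C₁ * (1 + R) ^ n))
    (hC₁ : 0 ≤ C₁) : ∀ y ∈ W, qQ v y = 0 := by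
  obtain ⟨m₂, a, p, ε, C, f, hm2, hnp, hpa, hε, hC, hI⟩ := hF
  obtain ⟨m₀, rfl⟩ : ∃ m₀, m₂ = m₀ + 2 := ⟨m₂ - 2, by omega⟩
  obtain ⟨b, rfl⟩ : ∃ b, a = p + (b + 1) := ⟨a - p - 1, by omega⟩
  simp only [Nat.add_sub_cancel_left] at hI
  have hW := hv.isOpen
  have hvc : ContinuousOn v W := hv.sm.continuousOn
  have hQc : ContinuousOn (qQ v) W := hv.sm_qQ.continuousOn
  have hcpt : ∀ R : ℝ, IsCompact {x | x ∈ W ∧ v x ≤ R} := fun R => by
    rcases le_or_gt 0 R with hR | hR
    · exact (hsec R hR).1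
    · rw [Set.eq_empty_iff_forall_notMem.2 fun x (hx : x ∈ {x | x ∈ W ∧ v x ≤ R}) =>
        absurd ((hnn x hx.1).trans hx.2) (not_le.2 hR)]
      exact isCompact_empty
  have hdec : ∀ R : ℝ, 1 ≤ R → ∫ x in {x | x ∈ W ∧ v x ≤ 1 / 2 * R}, qQ v x ^ p ≤
      C * C₁ * 2 ^ (p + (b + 1)) / ε * (1 + R) ^ n / R ^ p := by
    intro R hR
    have hR0 : 0 < R := by linarith
    set K := {x | x ∈ W ∧ v x ≤ R} with hK
    set L := {x | x ∈ W ∧ v x ≤ 1 / 2 * R}
    have hKc : IsCompact K := hcpt R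
    have hKW : K ⊆ W := fun x hx => hx.1
    have hLK : L ⊆ K := fun x hx => ⟨hx.1, hx.2.trans (by linarith)⟩
    set m : (Fin n → ℝ) → ℝ := fun y => max (R - v y) 0 with hm
    have hm0 : ∀ y ∈ W, y ∉ K → m y = 0 := fun y hy hyK =>
      max_eq_right (by linarith [lt_of_not_ge fun hle => hyK ⟨hy, hle⟩])
    have hmc : ContinuousOn m W := by fun_prop
    set F : Fin n → (Fin n → ℝ) → ℝ := fun i y => m y ^ (m₀ + 2) * f v R i y
    have hη : ContDiffOn ℝ 1 (fun y => R - v y) W :=
      (contDiffOn_const.sub hv.sm).of_le (by simp)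
    have hFs : ∀ i, ContDiffOn ℝ 1 (F i) W := fun i =>
      ((contDiff_posPart_pow m₀).comp_contDiffOn hη).mul
        (ContDiffOn.of_le ((hI hv R).1 i) (by simp))
    have hF0 : ∀ i, ∀ y ∈ W, y ∉ K → F i y = 0 := fun i y hy hyK => by
      simp only [F, hm0 y hy hyK, zero_pow (by omega : m₀ + 2 ≠ 0), zero_mul]
    set g : (Fin n → ℝ) → ℝ := fun y => ε * m y ^ (p + (b + 1)) * qQ v y ^ p with hg
    set k : (Fin n → ℝ) → ℝ := fun y => C * m y ^ (b + 1)
    set D : (Fin n → ℝ) → ℝ := fun y => ∑ i, pd i (F i) y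
    have hpt : ∀ y ∈ W, g y - k y ≤ D y := by
      intro y hy
      rcases lt_or_ge (v y) R with hlt | hge
      · have hnear : ∀ᶠ z in 𝓝 y, v z < R :=
          (hvc.continuousAt (hW.mem_nhds hy)).eventually_lt_const hlt
        have hFf : ∀ i, pd i (F i) y = pd i ((fun z => (R - v z) ^ (m₀ + 2) * f v R i z)) y := fun i =>
          pd_congr (hnear.mono fun z hz => by simp [F, m, max_eq_left (sub_nonneg.2 hz.le)]) i
        simp only [D, g, k, m, hFf, max_eq_left (sub_nonneg.2 hlt.le)]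
        exact (hI hv R).2 y hy hlt
      · have hmy : m y = 0 := max_eq_right (sub_nonpos.2 hge)
        have hdη : DifferentiableAt ℝ (fun z => R - v z) y :=
          (differentiableAt_const R).sub (hv.sm.differentiableAt hW hy)
        have hdm : HasFDerivAt (fun z => m z ^ (m₀ + 2)) (0 : (Fin n → ℝ) →L[ℝ] ℝ) y := by
          have := (hasDerivAt_posPart_pow m₀ (R - v y)).comp_hasFDerivAt y hdη.hasFDerivAt
          refine this.congr_fderiv ?_
          rw [show max (R - v y) 0 = 0 from hmy]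
          simp
        have hFy : ∀ i, pd i (F i) y = 0 := fun i => by
          rw [pd_mul hdm.differentiableAt (((hI hv R).1 i).differentiableAt hW hy), hmy,
            pd, hdm.fderiv]
          simp
        simp [D, g, k, hFy, hmy]
    have hgc : ContinuousOn g W := (continuousOn_const.mul (hmc.pow (p + (b + 1)))).mul (hQc.pow p)
    have hkc : ContinuousOn k W := continuousOn_const.mul (hmc.pow (b + 1))
    have hg0 : ∀ y ∈ W, y ∉ K → g y = 0 := fun y hy hyK => by simp [g, hm0 y hy hyK]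
    have hk0 : ∀ y ∈ W, y ∉ K → k y = 0 := fun y hy hyK => by simp [k, hm0 y hy hyK]
    have hgnn : ∀ y ∈ W, 0 ≤ g y := fun y hy => by
      have := hv.qQ_nonneg hy
      have : 0 ≤ m y := le_max_right _ _
      positivity
    have gI := integrableOn_of_vanish hW hKc hKW hgc hg0
    have kI := integrableOn_of_vanish hW hKc hKW hkc hk0
    have DI : IntegrableOn D W := integrableOn_of_vanish hW hKc hKW
      (continuousOn_finsetSum _ fun i _ => continuousOn_pd hW (hFs i) i)
      fun y hy hyK => Finset.sum_eq_zero fun i _ => pd_eq_zero_of_notMem hW hKc (hF0 i) i hy hyK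
    have hdiv : ∫ y in W, D y = 0 := setIntegral_div_eq_zero hW hKc hKW hFs hF0
    have h1 : ∫ y in W, g y ≤ ∫ y in W, k y := by
      have := setIntegral_mono_on (gI.sub kI) DI hW.measurableSet hpt
      rw [hdiv, Pi.sub_def, integral_sub gI kI] at this
      linarith
    have h2 : ∫ y in W, k y ≤ C * R ^ (b + 1) * (C₁ * (1 + R) ^ n) := by
      rw [setIntegral_eq_of_subset_of_forall_sdiff_eq_zero hW.measurableSet hKW
        fun y hy => hk0 y hy.1 hy.2]
      refine (setIntegral_mono_on (g := fun _ => C * R ^ (b + 1)) (kI.mono_set hKW)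
        (integrableOn_const hKc.measure_lt_top.ne) hKc.measurableSet fun y hy => ?_).trans ?_
      · exact mul_le_mul_of_nonneg_left (pow_le_pow_left₀ (le_max_right _ _)
          (max_le (by linarith [hnn y hy.1]) hR0.le) _) hC
      · rw [setIntegral_const, smul_eq_mul, mul_comm]
        exact mul_le_mul_of_nonneg_left
          (ENNReal.toReal_le_of_le_ofReal (by positivity) (hsec R hR0.le).2) (by positivity)
    have h3 : ε * (R / 2) ^ (p + (b + 1)) * ∫ y in L, qQ v y ^ p ≤ ∫ y in W, g y := by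
      rw [← integral_const_mul]
      refine (setIntegral_mono_on ?_ (gI.mono_set (hLK.trans hKW)) (hcpt _).measurableSet
        fun y hy => ?_).trans (setIntegral_mono_set gI
          ((ae_restrict_mem hW.measurableSet).mono hgnn) (hLK.trans hKW).eventuallyLE)
      · exact ((continuousOn_const.mul (hQc.pow p)).mono fun x hx => hx.1).integrableOn_compact
          (hcpt _)
      · have hQ := hv.qQ_nonneg hy.1
        have hmy : R / 2 ≤ m y := le_max_of_le_left (by linarith [hy.2])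
        show ε * (R / 2) ^ (p + (b + 1)) * qQ v y ^ p ≤ ε * m y ^ (p + (b + 1)) * qQ v y ^ p
        gcongr
    have h4 := h3.trans (h1.trans h2)
    rw [← le_div_iff₀' (by positivity)] at h4
    refine h4.trans (le_of_eq ?_)
    rw [div_pow, pow_add R p]
    field_simp
  intro y hy
  exact pow_eq_zero_iff (n := p) (by omega) |>.1
    (eq_zero_of_decay hW hvc (hQc.pow p) (fun z hz => pow_nonneg (hv.qQ_nonneg hz) p) hcpt
      (by norm_num : (0 : ℝ) < 1 / 2) hnp hdec y hy)

/-- Given such an inequality, an affine maximal function on a convex domain with closed sublevel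
sets is an entire quadratic polynomial. -/
theorem rigidity_of_field (hF : FieldIneq n) (hn : 1 ≤ n) (hu : AM W u) (hne : W.Nonempty)
    (hc : Convex ℝ W) (hcl : ∀ R, IsClosed {x | x ∈ W ∧ u x ≤ R}) :
    W = Set.univ ∧ IsQuadraticPoly u := by
  obtain ⟨x₀, h0⟩ := hne
  obtain ⟨C₁, hC₁, hsec⟩ := exists_sublevel_bound hu.isOpen hc hu.sm hu.pos hcl h0
  have hv := hu.tangent x₀
  have hQ := qQ_eq_zero hF hv (fun y hy => gap_nonneg hu.isOpen hc hu.sm hu.pos h0 hy) hsec hC₁
  have hconst := eq_const_of_pd_eq_zero hu.isOpen hc.isPreconnected hv.sm_logDet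
    (fun y hy k => hv.pd_logDet_eq_zero hy (hQ y hy) k) h0
  refine entire_quadratic_of_det_const (d := (hess u x₀).det) hn hu.isOpen ⟨x₀, h0⟩ hc
    hu.sm hu.pos hcl fun y hy => ?_
  have := hconst y hy
  rw [logDet, logDet, hess_tangentGap hu.isOpen hu.sm hy,
    hess_tangentGap hu.isOpen hu.sm h0] at this
  exact Real.log_injOn_pos (Set.mem_Ioi.2 (hu.det_pos hy)) (Set.mem_Ioi.2 (hu.det_pos h0)) this

/-- The same for a Euclidean complete graph. -/
theorem rigidity_of_field_complete (hF : FieldIneq n) (hn : 1 ≤ n) (hu : AM W u) (hne : W.Nonempty)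
    (hc : Convex ℝ W) (hcomp : GraphComplete W u) : W = Set.univ ∧ IsQuadraticPoly u :=
  rigidity_of_field hF hn hu hne hc
    (isClosed_sublevel_of_complete hu.isOpen hc hu.sm hu.pos hcomp)

end

end Vale.Agent.P252.Three
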