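import Vale.Agent.P252.Rigidity.Three.Spec
import Vale.Agent.P252.Rigidity.Sublevel

/-!
# Balanced caps

For every `x₀` and every height `h` some slope `p` makes the cap
`{u - u x₀ - p·(y - x₀) ≤ h}` compact and balanced around `x₀`: take `p` minimising
`∫ (h - ũ)₊²`; then `∫ (h - ũ)₊ (y - x₀) = 0`, and the weight is concave on the cap.
-/

namespace Vale.Agent.P252.Three

open scoped ContDiff Matrix Topology ENNReal
open MeasureTheory Filter Set

noncomputable section

variable {W : Set (Fin 3 → ℝ)} {u : (Fin 3 → ℝ) → ℝ} {x₀ p q : Fin 3 → ℝ} {h : ℝ}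

/-- Changing the slope adds a linear function. -/
lemma capFun_sub (u : (Fin 3 → ℝ) → ℝ) (x₀ p q y : Fin 3 → ℝ) :
    capFun u x₀ (p + q) y = capFun u x₀ p y - q ⬝ᵥ (y - x₀) := by
  simp only [capFun, add_dotProduct]
  ring

@[simp] lemma capFun_self (u : (Fin 3 → ℝ) → ℝ) (x₀ p : Fin 3 → ℝ) : capFun u x₀ p x₀ = 0 := by
  simp [capFun]

lemma continuousOn_capFun (hu : ContDiffOn ℝ ∞ u W) (x₀ p : Fin 3 → ℝ) :
    ContinuousOn (capFun u x₀ p) W := by
  have := hu.continuousOn
  unfold capFun dotProduct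
  fun_prop

lemma convexOn_capFun (hW : IsOpen W) (hc : Convex ℝ W) (hu : ContDiffOn ℝ ∞ u W)
    (hpos : ∀ x ∈ W, (hess u x).PosDef) (x₀ p : Fin 3 → ℝ) :
    ConvexOn ℝ W (capFun u x₀ p) := by
  refine ⟨hc, fun a ha b hb s t hs ht hst => ?_⟩
  set z := s • a + t • b
  have hz : z ∈ W := hc ha hb hs ht hst
  have h1 := Rigidity.gap_nonneg hW hc hu hpos hz ha
  have h2 := Rigidity.gap_nonneg hW hc hu hpos hz hb
  simp only [Rigidity.tangentGap] at h1 h2
  have h3 : s * fderiv ℝ u z (a - z) + t * fderiv ℝ u z (b - z) = 0 := by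
    rw [← smul_eq_mul, ← smul_eq_mul, ← map_smul, ← map_smul, ← map_add]
    have : s • (a - z) + t • (b - z) = 0 := by
      simp only [smul_sub]
      rw [show s • a - s • z + (t • b - t • z) = (s • a + t • b) - (s + t) • z by
        rw [add_smul]; abel, hst, one_smul, sub_self]
    rw [this, map_zero]
  have hu' : u z ≤ s * u a + t * u b := by
    have h5 := mul_nonneg hs h1
    have h6 := mul_nonneg ht h2
    have h4 : s * u z + t * u z = u z := by rw [← add_mul, hst, one_mul]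
    linarith
  have hd : p ⬝ᵥ (z - x₀) = s * (p ⬝ᵥ (a - x₀)) + t * (p ⬝ᵥ (b - x₀)) := by
    have e : z - x₀ = s • (a - x₀) + t • (b - x₀) := by
      rw [smul_sub, smul_sub,
        show s • a - s • x₀ + (t • b - t • x₀) = (s • a + t • b) - (s + t) • x₀ by
          rw [add_smul]; abel, hst, one_smul]
    rw [e, dotProduct_add, dotProduct_smul, dotProduct_smul, smul_eq_mul, smul_eq_mul]
  have hx : s * u x₀ + t * u x₀ = u x₀ := by rw [← add_mul, hst, one_mul]
  show u z - u x₀ - p ⬝ᵥ (z - x₀) ≤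
    s • (u a - u x₀ - p ⬝ᵥ (a - x₀)) + t • (u b - u x₀ - p ⬝ᵥ (b - x₀))
  rw [hd, smul_eq_mul, smul_eq_mul]
  linarith

lemma isClosed_capSet (hu : ContDiffOn ℝ ∞ u W)
    (hcl : ∀ R, IsClosed {x | x ∈ W ∧ u x ≤ R}) (x₀ p : Fin 3 → ℝ) (R : ℝ) :
    IsClosed (capSet u x₀ p R W) := by
  refine isClosed_of_closure_subset fun z hz => ?_
  obtain ⟨f, hf, hlim⟩ := mem_closure_iff_seq_limit.1 hz
  have hl : Tendsto (fun k => R + u x₀ + p ⬝ᵥ (f k - x₀)) atTop
      (𝓝 (R + u x₀ + p ⬝ᵥ (z - x₀))) := by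
    have hcont : Continuous fun y : Fin 3 → ℝ => R + u x₀ + p ⬝ᵥ (y - x₀) := by
      unfold dotProduct; fun_prop
    exact (hcont.tendsto z).comp hlim
  obtain ⟨B, hB⟩ := hl.bddAbove_range
  have hzW : z ∈ W := by
    refine ((hcl B).mem_of_tendsto hlim (Eventually.of_forall fun k => ?_)).1
    refine ⟨(hf k).1, ?_⟩
    have h1 := (hf k).2
    have h2 := hB ⟨k, rfl⟩
    simp only [capFun] at h1
    linarith
  refine ⟨hzW, ?_⟩
  have hcw : Tendsto (fun k => capFun u x₀ p (f k)) atTop (𝓝 (capFun u x₀ p z)) :=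
    ((continuousOn_capFun hu x₀ p) z hzW).tendsto.comp
      (tendsto_nhdsWithin_iff.2 ⟨hlim, Eventually.of_forall fun k => (hf k).1⟩)
  exact le_of_tendsto hcw (Eventually.of_forall fun k => (hf k).2)

/-- The weight `(h - ũ)₊`. -/
def capWt (u : (Fin 3 → ℝ) → ℝ) (x₀ p : Fin 3 → ℝ) (h : ℝ) (y : Fin 3 → ℝ) : ℝ :=
  max (h - capFun u x₀ p y) 0

/-- `∫ (h - ũ)₊²`. -/
def capInt (W : Set (Fin 3 → ℝ)) (u : (Fin 3 → ℝ) → ℝ) (x₀ : Fin 3 → ℝ) (h : ℝ)
    (p : Fin 3 → ℝ) : ℝ≥0∞ :=
  ∫⁻ y in W, ENNReal.ofReal (capWt u x₀ p h y ^ 2)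

variable (hW : IsOpen W) (hc : Convex ℝ W) (hu : ContDiffOn ℝ ∞ u W)
  (hpos : ∀ x ∈ W, (hess u x).PosDef) (hcl : ∀ R, IsClosed {x | x ∈ W ∧ u x ≤ R}) (h0 : x₀ ∈ W)

lemma continuousOn_capWt (hu : ContDiffOn ℝ ∞ u W) (x₀ p : Fin 3 → ℝ) (h : ℝ) :
    ContinuousOn (capWt u x₀ p h) W :=
  (continuous_id.max continuous_const).comp_continuousOn
    (continuousOn_const.sub (continuousOn_capFun hu x₀ p))

include hW hu in
lemma aemeasurable_capWt (p : Fin 3 → ℝ) (h : ℝ) :
    AEMeasurable (fun y => ENNReal.ofReal (capWt u x₀ p h y ^ 2)) (volume.restrict W) :=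
  (((continuousOn_capWt hu x₀ p h).pow 2).aemeasurable hW.measurableSet).ennreal_ofReal

include hW hu in
/-- Fatou: lower semicontinuity in the slope. -/
lemma capInt_le_of_tendsto {f : ℕ → Fin 3 → ℝ} (hf : Tendsto f atTop (𝓝 p)) {c : ℝ≥0∞}
    (hle : Tendsto (fun k => capInt W u x₀ h (f k)) atTop (𝓝 c)) : capInt W u x₀ h p ≤ c := by
  have hpt : ∀ y, Tendsto (fun k => ENNReal.ofReal (capWt u x₀ (f k) h y ^ 2)) atTop
      (𝓝 (ENNReal.ofReal (capWt u x₀ p h y ^ 2))) := fun y => by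
    have hcont : Continuous fun q : Fin 3 → ℝ => ENNReal.ofReal (capWt u x₀ q h y ^ 2) := by
      refine ENNReal.continuous_ofReal.comp ?_
      unfold capWt capFun dotProduct
      fun_prop
    exact (hcont.tendsto p).comp hf
  calc capInt W u x₀ h p
      = ∫⁻ y in W, liminf (fun k => ENNReal.ofReal (capWt u x₀ (f k) h y ^ 2)) atTop :=
        lintegral_congr fun y => (hpt y).liminf_eq.symm
    _ ≤ liminf (fun k => capInt W u x₀ h (f k)) atTop :=
        lintegral_liminf_le' fun k => aemeasurable_capWt hW hu (f k) h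
    _ = c := hle.liminf_eq

include hu in
lemma integrableOn_capWt_sq (hcpt : IsCompact (capSet u x₀ p h W)) :
    IntegrableOn (fun y => capWt u x₀ p h y ^ 2) (capSet u x₀ p h W) :=
  (((continuousOn_capWt hu x₀ p h).pow 2).mono fun y hy => hy.1).integrableOn_compact hcpt

include hW hu in
/-- The integral only sees a compact set outside which the cap function exceeds `h`. -/
lemma capInt_eq_of_subset {K : Set (Fin 3 → ℝ)} (hK : IsCompact K) (hKW : K ⊆ W)
    (hout : ∀ y ∈ W, y ∉ K → h ≤ capFun u x₀ p y) :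
    capInt W u x₀ h p = ENNReal.ofReal (∫ y in K, capWt u x₀ p h y ^ 2) := by
  have hint : IntegrableOn (fun y => capWt u x₀ p h y ^ 2) K :=
    (((continuousOn_capWt hu x₀ p h).pow 2).mono hKW).integrableOn_compact hK
  rw [ofReal_integral_eq_lintegral_ofReal hint (Eventually.of_forall fun y => sq_nonneg _), capInt]
  rw [← lintegral_indicator hW.measurableSet, ← lintegral_indicator hK.measurableSet]
  refine lintegral_congr fun y => ?_
  by_cases hy : y ∈ K
  · rw [indicator_of_mem (hKW hy), indicator_of_mem hy]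
  · rw [indicator_of_notMem hy]
    by_cases hyW : y ∈ W
    · rw [indicator_of_mem hyW]
      have : capWt u x₀ p h y = 0 := max_eq_right (sub_nonpos.2 (hout y hyW hy))
      simp [this]
    · rw [indicator_of_notMem hyW]

include hW hu in
lemma capInt_ne_top (hcpt : IsCompact (capSet u x₀ p h W)) : capInt W u x₀ h p ≠ ⊤ := by
  rw [capInt_eq_of_subset hW hu hcpt (fun y hy => hy.1)
    fun y hy hyK => le_of_not_ge fun hle => hyK ⟨hy, hle⟩]
  exact ENNReal.ofReal_ne_top

include hW hu h0 in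
/-- Coercivity: a ball on which the weight grows linearly in the slope. -/
lemma exists_coercive :
    ∃ r M : ℝ, 0 < r ∧ ∀ p : Fin 3 → ℝ, 0 ≤ h - M + r * ‖p‖ →
      ENNReal.ofReal ((h - M + r * ‖p‖) ^ 2) * volume (Metric.closedBall (0 : Fin 3 → ℝ) r)
        ≤ capInt W u x₀ h p := by
  obtain ⟨ρ, hρ, hball⟩ := Metric.nhds_basis_closedBall.mem_iff.1 (hW.mem_nhds h0)
  obtain ⟨M, hM⟩ := ((isCompact_closedBall x₀ ρ).image_of_continuousOn
    ((hu.continuousOn.mono hball).sub continuousOn_const (g := fun _ => u x₀))).bddAbove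
  refine ⟨ρ / 8, M, by positivity, fun p hp => ?_⟩
  obtain ⟨i, -, hi⟩ := Finset.exists_max_image Finset.univ (fun j : Fin 3 => |p j|) Finset.univ_nonempty
  have hnorm : ‖p‖ ≤ |p i| :=
    (pi_norm_le_iff_of_nonneg (abs_nonneg _)).2 fun j => by
      simpa [Real.norm_eq_abs] using hi j (Finset.mem_univ j)
  obtain ⟨σ, hσ, hσp⟩ : ∃ σ : ℝ, |σ| = 1 ∧ σ * p i = |p i| := by
    rcases le_total 0 (p i) with hp | hp
    · exact ⟨1, abs_one, by rw [abs_of_nonneg hp, one_mul]⟩
    · exact ⟨-1, by simp, by rw [abs_of_nonpos hp, neg_one_mul]⟩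
  set c : Fin 3 → ℝ := x₀ + (ρ / 2) • Pi.single i σ with hc
  have hsub : Metric.closedBall c (ρ / 8) ⊆ W := by
    refine fun y hy => hball ?_
    rw [Metric.mem_closedBall] at hy ⊢
    have h1 : dist c x₀ ≤ ρ / 2 := by
      rw [hc, dist_eq_norm, add_sub_cancel_left, norm_smul,
        Pi.norm_single, Real.norm_eq_abs, Real.norm_eq_abs, hσ, mul_one, abs_of_pos (by positivity)]
    linarith [dist_triangle y c x₀]
  have hlow : ∀ y ∈ Metric.closedBall c (ρ / 8),
      h - M + ρ / 8 * ‖p‖ ≤ capWt u x₀ p h y := by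
    intro y hy
    refine le_max_of_le_left ?_
    have hyρ : y ∈ Metric.closedBall x₀ ρ := by
      rw [Metric.mem_closedBall] at hy ⊢
      have h1 : dist c x₀ ≤ ρ / 2 := by
        rw [hc, dist_eq_norm, add_sub_cancel_left, norm_smul, Pi.norm_single, Real.norm_eq_abs,
          Real.norm_eq_abs, hσ, mul_one, abs_of_pos (by positivity)]
      linarith [dist_triangle y c x₀]
    have hMy : u y - u x₀ ≤ M := hM ⟨y, hyρ, rfl⟩
    have hd : ∀ j, |y j - c j| ≤ ρ / 8 := fun j => by
      have := (dist_le_pi_dist y c j).trans (Metric.mem_closedBall.1 hy)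
      rwa [Real.dist_eq] at this
    have hp_dot : ρ / 8 * ‖p‖ ≤ p ⬝ᵥ (y - x₀) := by
      have e : p ⬝ᵥ (y - x₀) = ρ / 2 * |p i| + ∑ j, p j * (y j - c j) := by
        rw [← hσp]
        simp only [dotProduct, hc, Pi.add_apply, Pi.sub_apply, Pi.smul_apply, smul_eq_mul]
        rw [show ρ / 2 * (σ * p i) = ∑ j, p j * (ρ / 2 * (Pi.single i σ : Fin 3 → ℝ) j) by
          rw [Finset.sum_eq_single i (fun j _ hj => by simp [Pi.single_eq_of_ne hj])
            (by simp), Pi.single_eq_same]; ring, ← Finset.sum_add_distrib]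
        exact Finset.sum_congr rfl fun j _ => by ring
      have hb : -(3 * (ρ / 8) * |p i|) ≤ ∑ j, p j * (y j - c j) := by
        refine neg_le_of_abs_le ((Finset.abs_sum_le_sum_abs _ _).trans ?_)
        refine (Finset.sum_le_sum fun j _ => ?_).trans
          (le_of_eq (show (∑ _j : Fin 3, ρ / 8 * |p i|) = 3 * (ρ / 8) * |p i| by simp; ring))
        rw [abs_mul, mul_comm]
        exact mul_le_mul (hd j) (hi j (Finset.mem_univ j)) (abs_nonneg _) (by positivity)
      nlinarith [abs_nonneg (p i)]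
    have : capFun u x₀ p y = u y - u x₀ - p ⬝ᵥ (y - x₀) := rfl
    linarith
  calc ENNReal.ofReal ((h - M + ρ / 8 * ‖p‖) ^ 2) * volume (Metric.closedBall (0 : Fin 3 → ℝ) (ρ / 8))
      = ∫⁻ _ in Metric.closedBall c (ρ / 8), ENNReal.ofReal ((h - M + ρ / 8 * ‖p‖) ^ 2) := by
        rw [setLIntegral_const, Measure.addHaar_closedBall_center volume c]
    _ ≤ ∫⁻ y in Metric.closedBall c (ρ / 8), ENNReal.ofReal (capWt u x₀ p h y ^ 2) :=
        setLIntegral_mono' measurableSet_closedBall fun y hy =>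
          ENNReal.ofReal_le_ofReal (pow_le_pow_left₀ hp (hlow y hy) 2)
    _ ≤ capInt W u x₀ h p := lintegral_mono_set hsub

include hW hc hu hpos hcl h0 in
/-- A minimiser exists. -/
lemma exists_minimiser (h : ℝ) :
    ∃ p, capInt W u x₀ h p ≠ ⊤ ∧ ∀ q, capInt W u x₀ h p ≤ capInt W u x₀ h q := by
  obtain ⟨C, -, hsec⟩ := Rigidity.exists_sublevel_bound hW hc hu hpos hcl h0
  set p₀ : Fin 3 → ℝ := fun i => fderiv ℝ u x₀ (Pi.single i 1)
  have hgap : ∀ y, capFun u x₀ p₀ y = Rigidity.tangentGap u x₀ y := fun y => by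
    simp only [capFun, Rigidity.tangentGap, dotProduct, p₀]
    conv_rhs => rw [pi_eq_sum_univ' (y - x₀)]
    simp [map_sum, map_smul, mul_comm]
  have hset : IsCompact (capSet u x₀ p₀ h W) := by
    refine IsCompact.of_isClosed_subset (hsec (max h 0) (le_max_right _ _)).1
      (isClosed_capSet hu hcl x₀ p₀ h) fun y hy => ⟨hy.1, ?_⟩
    rw [← hgap]
    exact hy.2.trans (le_max_left _ _)
  set c := ⨅ q, capInt W u x₀ h q with hcdef
  have hfin : c ≠ ⊤ := ne_top_of_le_ne_top (capInt_ne_top hW hu hset) (iInf_le _ p₀)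
  obtain ⟨s, hs, hstend, hsmem⟩ := exists_seq_tendsto_sInf
    (Set.range_nonempty (capInt W u x₀ h)) (OrderBot.bddBelow _)
  choose f hf using hsmem
  have hft : Tendsto (fun k => capInt W u x₀ h (f k)) atTop (𝓝 c) := by
    simp only [hf]
    rw [hcdef, ← sInf_range]
    exact hstend
  obtain ⟨r, M, hr, hco⟩ := exists_coercive (h := h) hW hu h0
  have hv : volume (Metric.closedBall (0 : Fin 3 → ℝ) r) ≠ 0 :=
    (Metric.measure_closedBall_pos volume 0 hr).ne'
  have hbound : ∃ B, ∀ᶠ k in atTop, ‖f k‖ ≤ B := by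
    set B' := (((c + 1) / volume (Metric.closedBall (0 : Fin 3 → ℝ) r)).toReal).sqrt
    refine ⟨max ((B' - h + M) / r) ((M - h) / r), ?_⟩
    filter_upwards [hft.eventually_le_const (ENNReal.lt_add_right hfin one_ne_zero)] with k hk
    rcases le_total ‖f k‖ ((M - h) / r) with h1 | h1
    · exact h1.trans (le_max_right _ _)
    refine le_max_of_le_left ?_
    rw [div_le_iff₀ hr] at h1
    have hnn : 0 ≤ h - M + r * ‖f k‖ := by linarith
    have h2 := (hco (f k) hnn).trans hk
    rw [← ENNReal.le_div_iff_mul_le (Or.inl hv) (Or.inl measure_closedBall_lt_top.ne)] at h2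
    have hne : (c + 1) / volume (Metric.closedBall (0 : Fin 3 → ℝ) r) ≠ ⊤ :=
      ENNReal.div_ne_top (ENNReal.add_ne_top.2 ⟨hfin, ENNReal.one_ne_top⟩) hv
    have h3 := (ENNReal.ofReal_le_iff_le_toReal hne).1 h2
    have h4 := Real.le_sqrt_of_sq_le h3
    rw [le_div_iff₀ hr]
    linarith
  obtain ⟨B, hB⟩ := hbound
  obtain ⟨N, hN⟩ := eventually_atTop.1 hB
  obtain ⟨q, -, φ, hφ, hlim⟩ := (isCompact_closedBall (0 : Fin 3 → ℝ) B).tendsto_subseq
    (x := fun k => f (k + N)) fun k => by simpa using hN (k + N) (Nat.le_add_left _ _)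
  have hle : capInt W u x₀ h q ≤ c := by
    refine capInt_le_of_tendsto hW hu hlim ?_
    exact hft.comp ((tendsto_add_atTop_nat N).comp hφ.tendsto_atTop)
  exact ⟨q, ne_top_of_le_ne_top hfin hle, fun q' => hle.trans (iInf_le _ q')⟩

include hW hc hu hpos hcl h0 in
/-- A finite integral forces every cap with that slope to be compact. -/
lemma isCompact_of_capInt_ne_top (hh : 0 < h) (hfin : capInt W u x₀ h p ≠ ⊤) (R : ℝ) :
    IsCompact (capSet u x₀ p R W) := by
  refine Metric.isCompact_of_isClosed_isBounded (isClosed_capSet hu hcl x₀ p R) ?_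
  set R' := max R h
  have hR' : 0 < R' := lt_max_of_lt_right hh
  set τ := h / (4 * R') with hτ
  have hτ0 : 0 < τ := by positivity
  have hτ1 : τ ≤ 1 / 4 := by
    rw [hτ, div_le_iff₀ (by positivity)]
    linarith [le_max_right R h]
  obtain ⟨r, hr, hball⟩ := Metric.nhds_basis_closedBall.mem_iff.1
    (inter_mem (hW.mem_nhds h0) (((continuousOn_capFun hu x₀ p).continuousAt
      (hW.mem_nhds h0)).preimage_mem_nhds (Iic_mem_nhds (show capFun u x₀ p x₀ < h / 4 by
        rw [capFun_self]; positivity))))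
  set v := volume (Metric.closedBall (0 : Fin 3 → ℝ) (r / 2))
  have hv : ENNReal.ofReal (h ^ 2 / 4) * v ≠ 0 :=
    mul_ne_zero (by simpa using by positivity) (Metric.measure_closedBall_pos volume 0 (by positivity)).ne'
  obtain ⟨N, hN⟩ : ∃ N : ℕ, capInt W u x₀ h p < N * (ENNReal.ofReal (h ^ 2 / 4) * v) :=
    ENNReal.exists_nat_mul_gt hv hfin
  rw [Metric.isBounded_iff_subset_closedBall x₀]
  refine ⟨2 * r * N / τ, fun y hy => ?_⟩
  rw [Metric.mem_closedBall]
  by_contra hgt
  push Not at hgt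
  set d := dist y x₀ with hd
  set cf : ℕ → (Fin 3 → ℝ) := fun j => x₀ + ((j : ℝ) * τ / N) • (y - x₀)
  have hN0 : (N : ℝ) ≠ 0 := by
    intro e
    have : N = 0 := by exact_mod_cast e
    simp [this] at hN
  have hdisj : (Finset.range N : Set ℕ).PairwiseDisjoint fun j => Metric.closedBall (cf j) (r / 2) := by
    intro i _ j _ hij
    refine Metric.closedBall_disjoint_closedBall ?_
    have hij' : (1 : ℝ) ≤ |(i : ℝ) - j| := by
      rcases lt_or_gt_of_ne hij with hlt | hlt
      · rw [abs_sub_comm]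
        exact le_trans (by rw [le_sub_iff_add_le]; exact_mod_cast (by omega : 1 + i ≤ j)) (le_abs_self _)
      · exact le_trans (by rw [le_sub_iff_add_le]; exact_mod_cast (by omega : 1 + j ≤ i)) (le_abs_self _)
    have e : cf i - cf j = (((i : ℝ) - j) * τ / N) • (y - x₀) := by
      simp only [cf]
      rw [add_sub_add_left_eq_sub, ← sub_smul]
      congr 1
      ring
    rw [dist_eq_norm, e, norm_smul, ← dist_eq_norm, ← hd, Real.norm_eq_abs, abs_div, abs_mul,
      abs_of_pos hτ0, Nat.abs_cast]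
    have hNpos : (0 : ℝ) < N := lt_of_le_of_ne (Nat.cast_nonneg N) (Ne.symm hN0)
    have h1 : 2 * r * N < d * τ := (div_lt_iff₀ hτ0).1 hgt
    rw [div_mul_eq_mul_div, lt_div_iff₀ hNpos]
    nlinarith [mul_le_mul_of_nonneg_right hij' (by positivity : (0:ℝ) ≤ d * τ)]
  have hin : ∀ j ∈ Finset.range N, ∀ z ∈ Metric.closedBall (cf j) (r / 2),
      z ∈ W ∧ h / 2 ≤ capWt u x₀ p h z := by
    intro j hj z hz
    set t := (j : ℝ) * τ / N with ht
    have htτ : t ≤ τ := by
      rw [ht, div_le_iff₀ (lt_of_le_of_ne (Nat.cast_nonneg N) (Ne.symm hN0))]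
      have : (j : ℝ) ≤ N := by exact_mod_cast (Finset.mem_range.1 hj).le
      nlinarith
    have ht0 : 0 ≤ t := by positivity
    have ht1 : 0 < 1 - t := by linarith
    set a := x₀ + (1 - t)⁻¹ • (z - cf j) with ha
    have haB : a ∈ Metric.closedBall x₀ r := by
      rw [Metric.mem_closedBall, dist_eq_norm, ha, add_sub_cancel_left, norm_smul,
        Real.norm_eq_abs, abs_of_pos (inv_pos.2 ht1), ← dist_eq_norm, inv_mul_le_iff₀ ht1]
      have h1 := Metric.mem_closedBall.1 hz
      nlinarith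
    obtain ⟨haW, haf⟩ := hball haB
    have hz' : z = (1 - t) • a + t • y := by
      rw [ha, smul_add, smul_inv_smul₀ ht1.ne']
      simp only [cf, ← ht, smul_sub, sub_smul, one_smul]
      abel
    have hzW : z ∈ W := hz' ▸ hc haW hy.1 ht1.le ht0 (by ring)
    refine ⟨hzW, le_max_of_le_left ?_⟩
    have h2 := (convexOn_capFun hW hc hu hpos x₀ p).2 haW hy.1 ht1.le ht0 (by ring)
    rw [← hz'] at h2
    simp only [smul_eq_mul, mem_preimage, mem_Iic] at h2 haf
    have h3 : t * capFun u x₀ p y ≤ τ * R' :=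
      (mul_le_mul_of_nonneg_left (hy.2.trans (le_max_left R h)) ht0).trans
        (mul_le_mul_of_nonneg_right htτ hR'.le)
    have h4 : τ * R' = h / 4 := by rw [hτ]; field_simp
    nlinarith
  have hlow : ∀ j ∈ Finset.range N, ENNReal.ofReal (h ^ 2 / 4) * v ≤
      ∫⁻ z in Metric.closedBall (cf j) (r / 2), ENNReal.ofReal (capWt u x₀ p h z ^ 2) := by
    intro j hj
    rw [show v = volume (Metric.closedBall (cf j) (r / 2)) from
      (Measure.addHaar_closedBall_center volume (cf j) (r / 2)).symm, ← setLIntegral_const]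
    refine setLIntegral_mono' measurableSet_closedBall fun z hz => ENNReal.ofReal_le_ofReal ?_
    calc h ^ 2 / 4 = (h / 2) ^ 2 := by ring
      _ ≤ _ := pow_le_pow_left₀ (by positivity) (hin j hj z hz).2 2
  have hsum : (N : ℝ≥0∞) * (ENNReal.ofReal (h ^ 2 / 4) * v) ≤ capInt W u x₀ h p := by
    calc (N : ℝ≥0∞) * (ENNReal.ofReal (h ^ 2 / 4) * v)
        = ∑ _j ∈ Finset.range N, ENNReal.ofReal (h ^ 2 / 4) * v := by simp
      _ ≤ ∑ j ∈ Finset.range N, ∫⁻ z in Metric.closedBall (cf j) (r / 2),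
            ENNReal.ofReal (capWt u x₀ p h z ^ 2) := Finset.sum_le_sum hlow
      _ = ∫⁻ z in ⋃ j ∈ Finset.range N, Metric.closedBall (cf j) (r / 2),
            ENNReal.ofReal (capWt u x₀ p h z ^ 2) :=
          (lintegral_biUnion_finset hdisj (fun j _ => measurableSet_closedBall) _).symm
      _ ≤ capInt W u x₀ h p :=
          lintegral_mono_set (iUnion₂_subset fun j hj z hz => (hin j hj z hz).1)
  exact absurd hsum (not_le.2 hN)

include hW hc hu hpos hcl h0 in
/-- Criticality of a minimiser: the weight is centred at `x₀`. -/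
lemma centred (hh : 0 < h) (hfin : capInt W u x₀ h p ≠ ⊤)
    (hmin : ∀ q, capInt W u x₀ h p ≤ capInt W u x₀ h q) (q : Fin 3 → ℝ) :
    ∫ y in capSet u x₀ p h W, capWt u x₀ p h y * (q ⬝ᵥ (y - x₀)) = 0 := by
  set K := capSet u x₀ p (2 * h) W
  have hK : IsCompact K := isCompact_of_capInt_ne_top hW hc hu hpos hcl h0 hh hfin _
  have hKW : K ⊆ W := fun y hy => hy.1
  obtain ⟨D, hD⟩ := (hK.image (show Continuous fun y : Fin 3 → ℝ => |q ⬝ᵥ (y - x₀)| by
    unfold dotProduct; fun_prop)).bddAbove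
  have hD' : ∀ y ∈ K, |q ⬝ᵥ (y - x₀)| ≤ D := fun y hy => hD ⟨y, hy, rfl⟩
  have hD0 : 0 ≤ D := (abs_nonneg _).trans (hD' x₀ ⟨h0, by rw [capFun_self]; positivity⟩)
  have hout : ∀ t : ℝ, |t| * (D + 1) ≤ h → ∀ y ∈ W, y ∉ K →
      h ≤ capFun u x₀ (p + t • q) y := by
    intro t ht y hy hyK
    have hgt : 2 * h < capFun u x₀ p y := lt_of_not_ge fun hle => hyK ⟨hy, hle⟩
    have hseg : ∀ s ∈ Icc (0 : ℝ) 1, x₀ + s • (y - x₀) ∈ W := fun s hs =>
      hc.add_smul_sub_mem h0 hy hs
    have hcont : ContinuousOn (fun s : ℝ => capFun u x₀ p (x₀ + s • (y - x₀))) (Icc 0 1) :=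
      (continuousOn_capFun hu x₀ p).comp (by fun_prop) hseg
    obtain ⟨s, hs, hs2⟩ := intermediate_value_Icc zero_le_one hcont
      (show 2 * h ∈ Icc (capFun u x₀ p (x₀ + (0 : ℝ) • (y - x₀)))
        (capFun u x₀ p (x₀ + (1 : ℝ) • (y - x₀))) by
          simp only [zero_smul, add_zero, capFun_self, one_smul, add_sub_cancel]
          exact ⟨by positivity, hgt.le⟩)
    set z := x₀ + s • (y - x₀)
    have hzK : z ∈ K := ⟨hseg s hs, hs2.le⟩
    have h1 : h ≤ capFun u x₀ (p + t • q) z := by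
      rw [capFun_sub, smul_dotProduct, smul_eq_mul, show capFun u x₀ p z = 2 * h from hs2]
      have : t * (q ⬝ᵥ (z - x₀)) ≤ |t| * D :=
        (le_abs_self _).trans (by rw [abs_mul]; exact mul_le_mul_of_nonneg_left (hD' z hzK) (abs_nonneg t))
      nlinarith [abs_nonneg t]
    have h2 := (convexOn_capFun hW hc hu hpos x₀ (p + t • q)).2 h0 hy
      (sub_nonneg.2 hs.2) hs.1 (by ring)
    rw [capFun_self, smul_zero, zero_add, smul_eq_mul,
      show (1 - s) • x₀ + s • y = z by simp only [z, sub_smul, one_smul, smul_sub]; abel] at h2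
    by_contra hlt
    push Not at hlt
    rcases eq_or_lt_of_le hs.1 with e | e
    · subst e
      simp only [zero_mul] at h2
      linarith
    · nlinarith [mul_lt_mul_of_pos_left hlt e, mul_le_mul_of_nonneg_right hs.2 hh.le]
  have hval : ∀ t : ℝ, |t| * (D + 1) ≤ h → ∫ y in K, capWt u x₀ p h y ^ 2 ≤
      ∫ y in K, capWt u x₀ (p + t • q) h y ^ 2 := by
    intro t ht
    have h1 := hmin (p + t • q)
    rw [capInt_eq_of_subset hW hu hK hKW (hout t ht), capInt_eq_of_subset hW hu hK hKW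
      fun y hy hyK => by linarith [lt_of_not_ge fun hle => hyK (show y ∈ K from ⟨hy, hle⟩)]] at h1
    exact (ENNReal.ofReal_le_ofReal_iff (integral_nonneg fun y => sq_nonneg _)).1 h1
  set b : (Fin 3 → ℝ) → ℝ := fun y => q ⬝ᵥ (y - x₀)
  have hbc : Continuous b := by unfold b dotProduct; fun_prop
  have hwc : ∀ p', ContinuousOn (capWt u x₀ p' h) K := fun p' =>
    (continuousOn_capWt hu x₀ p' h).mono hKW
  set I := ∫ y in K, capWt u x₀ p h y * b y
  set J := ∫ y in K, b y ^ 2
  have hI : IntegrableOn (fun y => capWt u x₀ p h y * b y) K :=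
    ((hwc p).mul hbc.continuousOn).integrableOn_compact hK
  have hJ : IntegrableOn (fun y => b y ^ 2) K := (hbc.pow 2).continuousOn.integrableOn_compact hK
  have hP : IntegrableOn (fun y => capWt u x₀ p h y ^ 2) K :=
    ((hwc p).pow 2).integrableOn_compact hK
  have hkey : ∀ t : ℝ, |t| * (D + 1) ≤ h → 0 ≤ 2 * t * I + t ^ 2 * J := by
    intro t ht
    have h2 : ∫ y in K, capWt u x₀ (p + t • q) h y ^ 2 ≤
        ∫ y in K, (capWt u x₀ p h y ^ 2 + (2 * t * (capWt u x₀ p h y * b y) + t ^ 2 * b y ^ 2)) := by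
      refine setIntegral_mono_on (((hwc _).pow 2).integrableOn_compact hK)
        (hP.add ((hI.const_mul _).add (hJ.const_mul _))) hK.measurableSet fun y _ => ?_
      simp only [capWt, capFun_sub, smul_dotProduct, smul_eq_mul, b]
      set A := h - capFun u x₀ p y
      set B := t * (q ⬝ᵥ (y - x₀)) with hB
      rw [show 2 * t * (max A 0 * (q ⬝ᵥ (y - x₀))) = 2 * max A 0 * B by rw [hB]; ring,
        show t ^ 2 * (q ⬝ᵥ (y - x₀)) ^ 2 = B ^ 2 by rw [hB]; ring,
        show h - (capFun u x₀ p y - B) = A + B by simp only [A]; ring]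
      rcases max_cases (A + B) 0 with ⟨e1, e2⟩ | ⟨e1, e2⟩ <;>
        rcases max_cases A 0 with ⟨g1, g2⟩ | ⟨g1, g2⟩ <;> rw [e1, g1] <;> nlinarith
    have h3 := (hval t ht).trans h2
    have hI' : IntegrableOn (fun y => 2 * t * (capWt u x₀ p h y * b y)) K := hI.const_mul _
    have hJ' : IntegrableOn (fun y => t ^ 2 * b y ^ 2) K := hJ.const_mul _
    have hIJ : IntegrableOn (fun y => 2 * t * (capWt u x₀ p h y * b y) + t ^ 2 * b y ^ 2) K := hI'.add hJ'
    rw [integral_add hP hIJ, integral_add hI' hJ', integral_const_mul, integral_const_mul] at h3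
    linarith
  have hI0 : I = 0 := by
    have hJ0 : 0 ≤ J := integral_nonneg fun y => sq_nonneg _
    by_contra hne
    have hIpos : 0 < |I| := abs_pos.2 hne
    set t₀ := min (h / (D + 1)) (|I| / (J + 1))
    have ht₀ : 0 < t₀ := lt_min (by positivity) (by positivity)
    have ha : t₀ * (D + 1) ≤ h := (le_div_iff₀ (by positivity)).1 (min_le_left _ _)
    have hb : t₀ * (J + 1) ≤ |I| := (le_div_iff₀ (by positivity)).1 (min_le_right _ _)
    rcases abs_cases I with ⟨eI, -⟩ | ⟨eI, -⟩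
    · have := hkey (-t₀) (by rwa [abs_neg, abs_of_pos ht₀])
      nlinarith
    · have := hkey t₀ (by rwa [abs_of_pos ht₀])
      nlinarith
  rw [← hI0]
  have hsub : capSet u x₀ p h W ⊆ K := fun y hy => ⟨hy.1, hy.2.trans (by linarith)⟩
  refine (setIntegral_eq_of_subset_of_forall_sdiff_eq_zero hK.measurableSet hsub fun y hy => ?_).symm
  have : capWt u x₀ p h y = 0 :=
    max_eq_right (sub_nonpos.2 (le_of_not_ge fun hle => hy.2 ⟨hy.1.1, hle⟩))
  simp [this]

include hW hc hu hpos hcl h0 in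
/-- **Balanced caps exist.** -/
theorem exists_isCap (hh : 0 < h) : ∃ p, IsCap u x₀ p h W := by
  obtain ⟨p, hfin, hmin⟩ := exists_minimiser hW hc hu hpos hcl h0 h
  have hcpt := isCompact_of_capInt_ne_top hW hc hu hpos hcl h0 hh hfin h
  refine ⟨p, hcpt, fun y hy => ?_⟩
  by_contra hz
  set S := capSet u x₀ p h W
  have hconv : Convex ℝ S := (convexOn_capFun hW hc hu hpos x₀ p).convex_le h
  obtain ⟨f, c, hfS, hfz⟩ := geometric_hahn_banach_closed_point hconv hcpt.isClosed hz
  have hx0S : x₀ ∈ S := ⟨h0, by rw [capFun_self]; exact hh.le⟩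
  set q : Fin 3 → ℝ := fun i => f (Pi.single i 1)
  have hq : ∀ a, q ⬝ᵥ (a - x₀) = f a - f x₀ := fun a => by
    rw [← map_sub]
    conv_rhs => rw [pi_eq_sum_univ' (a - x₀)]
    simp [dotProduct, q, map_sum, map_smul, mul_comm]
  set σ := c - f x₀
  have hσ : 0 < σ := sub_pos.2 (hfS x₀ hx0S)
  have hyv : q ⬝ᵥ (y - x₀) < -(33 * σ) := by
    have h1 : f x₀ - (1 / 33 : ℝ) * (f y - f x₀) > c := by simpa [map_sub, map_smul] using hfz
    rw [hq]
    simp only [σ]
    linarith
  set ρ := capWt u x₀ p h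
  have hρc : ContinuousOn ρ S := (continuousOn_capWt hu x₀ p h).mono fun a ha => ha.1
  have hρ0 : ∀ a, 0 ≤ ρ a := fun a => le_max_right _ _
  set L : (Fin 3 → ℝ) → ℝ := fun a => q ⬝ᵥ (a - x₀)
  have hLc : Continuous L := by unfold L dotProduct; fun_prop
  set T : (Fin 3 → ℝ) → (Fin 3 → ℝ) := fun a => (1 / 2 : ℝ) • a + (1 / 2 : ℝ) • y
  have hTS : T '' S ⊆ S := by
    rintro - ⟨a, ha, rfl⟩
    exact hconv ha hy (by norm_num) (by norm_num) (by norm_num)
  have hTc : Continuous T := by unfold T; fun_prop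
  have hTm : IsCompact (T '' S) := hcpt.image hTc
  have hρi : IntegrableOn ρ S := hρc.integrableOn_compact hcpt
  have hρL : IntegrableOn (fun a => ρ a * L a) S :=
    (hρc.mul hLc.continuousOn).integrableOn_compact hcpt
  set P := ∫ a in S, ρ a
  have hPpos : 0 < P := by
    obtain ⟨r, hr, hball⟩ := Metric.nhds_basis_closedBall.mem_iff.1
      (inter_mem (hW.mem_nhds h0) (((continuousOn_capFun hu x₀ p).continuousAt
        (hW.mem_nhds h0)).preimage_mem_nhds (Iic_mem_nhds (show capFun u x₀ p x₀ < h / 2 by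
          rw [capFun_self]; positivity))))
    have hBS : Metric.closedBall x₀ r ⊆ S := fun a ha =>
      ⟨(hball ha).1, (show capFun u x₀ p a ≤ h / 2 from (hball ha).2).trans (by linarith)⟩
    have h1 : ∫ _ in Metric.closedBall x₀ r, h / 2 ≤ ∫ a in Metric.closedBall x₀ r, ρ a :=
      setIntegral_mono_on (integrableOn_const measure_closedBall_lt_top.ne) (hρi.mono_set hBS)
        measurableSet_closedBall fun a ha => le_max_of_le_left (by
          have : capFun u x₀ p a ≤ h / 2 := (hball ha).2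
          linarith)
    have h2 : ∫ a in Metric.closedBall x₀ r, ρ a ≤ P :=
      setIntegral_mono_set hρi (Eventually.of_forall hρ0) hBS.eventuallyLE
    rw [setIntegral_const, smul_eq_mul] at h1
    have h3 : 0 < volume.real (Metric.closedBall x₀ r) :=
      ENNReal.toReal_pos (Metric.measure_closedBall_pos volume x₀ hr).ne' measure_closedBall_lt_top.ne
    nlinarith
  have hlow : P / 16 ≤ ∫ a in T '' S, ρ a := by
    have hder : ∀ a ∈ S, HasFDerivWithinAt T ((1 / 2 : ℝ) • ContinuousLinearMap.id ℝ (Fin 3 → ℝ)) S a :=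
      fun a _ => (((hasFDerivAt_id a).const_smul (1 / 2 : ℝ)).add_const _).hasFDerivWithinAt
    have hinj : InjOn T S := fun a _ b _ e => by
      simpa [T] using e
    rw [integral_image_eq_integral_abs_det_fderiv_smul volume hcpt.measurableSet hder hinj]
    have hdet : |((1 / 2 : ℝ) • ContinuousLinearMap.id ℝ (Fin 3 → ℝ)).det| = 1 / 8 := by
      rw [show ((1 / 2 : ℝ) • ContinuousLinearMap.id ℝ (Fin 3 → ℝ)).det
        = LinearMap.det ((1 / 2 : ℝ) • (LinearMap.id : (Fin 3 → ℝ) →ₗ[ℝ] (Fin 3 → ℝ))) from rfl,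
        LinearMap.det_smul, LinearMap.det_id, Module.finrank_fin_fun]
      norm_num
    simp only [hdet, smul_eq_mul]
    rw [integral_const_mul]
    have : P / 2 ≤ ∫ a in S, ρ (T a) := by
      rw [show P / 2 = ∫ a in S, ρ a / 2 by rw [integral_div]]
      refine setIntegral_mono_on (hρi.div_const 2)
        ((hρc.comp hTc.continuousOn fun a ha => hTS ⟨a, ha, rfl⟩).integrableOn_compact hcpt)
        hcpt.measurableSet fun a ha => le_max_of_le_left ?_
      have h1 := (convexOn_capFun hW hc hu hpos x₀ p).2 ha.1 hy.1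
        (by norm_num : (0 : ℝ) ≤ 1 / 2) (by norm_num : (0 : ℝ) ≤ 1 / 2) (by norm_num)
      have h2 := ha.2
      have h3 := hy.2
      simp only [smul_eq_mul] at h1
      have h4 : ρ a = h - capFun u x₀ p a := max_eq_left (by linarith)
      rw [h4]
      show (h - capFun u x₀ p a) / 2 ≤ h - capFun u x₀ p (T a)
      linarith
    linarith
  have hLT : ∀ a ∈ T '' S, L a ≤ -(16 * σ) := by
    rintro - ⟨a, ha, rfl⟩
    have h1 : L a ≤ σ := by simp only [L, hq, σ]; linarith [hfS a ha]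
    have e : L (T a) = (L a + q ⬝ᵥ (y - x₀)) / 2 := by
      simp only [L, hq, T, map_add, map_smul, smul_eq_mul]
      ring
    rw [e]
    linarith
  have hsplit : ∫ a in S, ρ a * L a =
      (∫ a in T '' S, ρ a * L a) + ∫ a in S \ (T '' S), ρ a * L a := by
    rw [setIntegral_sdiff hTm.measurableSet hρL hTS]
    ring
  have h1 : ∫ a in T '' S, ρ a * L a ≤ -(16 * σ) * ∫ a in T '' S, ρ a := by
    rw [← integral_const_mul]
    exact setIntegral_mono_on (hρL.mono_set hTS) ((hρi.mono_set hTS).const_mul _) hTm.measurableSet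
      fun a ha => by nlinarith [hρ0 a, hLT a ha]
  have h2 : ∫ a in S \ (T '' S), ρ a * L a ≤ σ * ∫ a in S \ (T '' S), ρ a := by
    rw [← integral_const_mul]
    exact setIntegral_mono_on (hρL.mono_set sdiff_subset) ((hρi.mono_set sdiff_subset).const_mul _)
      (hcpt.measurableSet.diff hTm.measurableSet) fun a ha => by
        have : L a ≤ σ := by simp only [L, hq, σ]; linarith [hfS a ha.1]
        nlinarith [hρ0 a]
  have h3 : ∫ a in S \ (T '' S), ρ a = P - ∫ a in T '' S, ρ a :=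
    setIntegral_sdiff hTm.measurableSet hρi hTS
  have h4 : ∫ a in S, ρ a * L a = 0 := centred hW hc hu hpos hcl h0 hh hfin hmin q
  rw [h3] at h2
  nlinarith

end

end Vale.Agent.P252.Three
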