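import Vale.Agent.P252.Rigidity.Three.Spec
import Vale.Agent.P252.Rigidity.Sublevel

/-!
# Balanced caps: the polar product and the integral of the weight

A compact set `S` with `-y/33 ∈ S` for `y ∈ S` has `|S| |S°| ≤ C`. On a balanced cap the gradient
image of `{ψ ≤ 2^(k+1)}` lies in `2^(k+1) h` times the polar, so the change of variables gives
`∫ ψ^(-16/5) det D²u ≤ C h³ / |cap|`, hence the bound for `η²⁸ ψ⁻² (det D²u)^(5/8)`.
-/

namespace Vale.Agent.P252.Three

open scoped ContDiff Matrix ENNReal Topology Pointwise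
open MeasureTheory Set Filter Finset Rigidity

noncomputable section

/-- The polar of a set. -/
def polarSet (S : Set (Fin 3 → ℝ)) : Set (Fin 3 → ℝ) := {q | ∀ y ∈ S, q ⬝ᵥ y ≤ 1}

/-- The constant of the polar product. -/
def polarConst : ℝ := 8 * 66 ^ 3

/-- The volume of a compact balanced set times that of its polar is bounded. -/
theorem vol_mul_vol_polar_le {S : Set (Fin 3 → ℝ)} (hS : IsCompact S)
    (hbal : ∀ y ∈ S, -(1 / 33 : ℝ) • y ∈ S) :
    volume S * volume (polarSet S) ≤ ENNReal.ofReal polarConst := by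
  rcases S.eq_empty_or_nonempty with rfl | hne
  · simp
  set T : Set (Fin 3 → Fin 3 → ℝ) := Set.pi Set.univ fun _ => S with hT
  have hTc : IsCompact T := isCompact_univ_pi fun _ => hS
  have hTne : T.Nonempty := ⟨fun _ => hne.choose, fun i _ => hne.choose_spec⟩
  obtain ⟨M₀, hM₀, hmax⟩ := hTc.exists_isMaxOn hTne
    (f := fun M : Fin 3 → Fin 3 → ℝ => |(Matrix.of M).det|)
    (Continuous.continuousOn (Continuous.abs (Continuous.matrix_det (by fun_prop))))
  set M : Matrix (Fin 3) (Fin 3) ℝ := Matrix.of M₀ with hM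
  have hrow : ∀ i, M i ∈ S := fun i => hM₀ i (Set.mem_univ i)
  have hle : ∀ N : Matrix (Fin 3) (Fin 3) ℝ, (∀ i, N i ∈ S) → |N.det| ≤ |M.det| :=
    fun N hN => hmax (show (fun i => N i) ∈ T from fun i _ => hN i)
  rcases eq_or_ne M.det 0 with h0 | h0
  · have hsub : S ⊆ (Submodule.span ℝ S : Set (Fin 3 → ℝ)) := Submodule.subset_span
    have htop : Submodule.span ℝ S ≠ ⊤ := by
      intro htop
      obtain ⟨b, hbS, hbspan, hbli⟩ := exists_linearIndependent ℝ S
      rw [htop] at hbspan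
      let B := Module.Basis.mk hbli (by rw [Subtype.range_coe, hbspan])
      have hfin : b.Finite := hbli.setFinite
      have := hfin.fintype
      have hcard : Fintype.card b = 3 := by
        rw [← Module.finrank_eq_card_basis B, Module.finrank_fin_fun]
      let e : Fin 3 ≃ b := (Fintype.equivFinOfCardEq hcard).symm
      have hli : LinearIndependent ℝ (fun i : Fin 3 => ((e i : b) : Fin 3 → ℝ)) :=
        hbli.comp e e.injective
      have hu := Matrix.linearIndependent_rows_iff_isUnit.1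
        (show LinearIndependent ℝ (Matrix.of fun i : Fin 3 => ((e i : b) : Fin 3 → ℝ)).row from hli)
      rw [Matrix.isUnit_iff_isUnit_det, isUnit_iff_ne_zero] at hu
      have h1 := hle (Matrix.of fun i : Fin 3 => ((e i : b) : Fin 3 → ℝ)) fun i => hbS (e i).2
      rw [h0, abs_zero] at h1
      exact hu (abs_eq_zero.1 (le_antisymm h1 (abs_nonneg _)))
    rw [measure_mono_null hsub (Measure.addHaar_submodule volume _ htop), zero_mul]
    exact zero_le
  have hpos : 0 < |M.det| := abs_pos.2 h0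
  -- the set lies in a parallelepiped
  have h1 : S ⊆ (Matrix.toLin' Mᵀ) '' Set.Icc (fun _ => (-1 : ℝ)) (fun _ => 1) := by
    intro s hs
    obtain ⟨c, hc⟩ : ∃ c : Fin 3 → ℝ, Mᵀ *ᵥ c = s := ⟨Mᵀ⁻¹ *ᵥ s, by
      rw [Matrix.mulVec_mulVec, Matrix.mul_nonsing_inv _ (by
        rw [Matrix.det_transpose]; exact isUnit_iff_ne_zero.2 h0), Matrix.one_mulVec]⟩
    have hc' : s = ∑ k, c k • M k := by
      rw [← hc]
      ext i
      simp [Matrix.mulVec, dotProduct, mul_comm, Finset.sum_apply]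
    have habs : ∀ i, |c i| ≤ 1 := by
      intro i
      have h := hle (M.updateRow i s) fun j => by
        rcases eq_or_ne j i with rfl | hj
        · rw [Matrix.updateRow_self]; exact hs
        · rw [Matrix.updateRow_ne hj]; exact hrow j
      rw [hc', Matrix.det_updateRow_sum, smul_eq_mul, abs_mul] at h
      exact le_of_mul_le_mul_right (h.trans (le_of_eq (one_mul _).symm)) hpos
    exact ⟨c, ⟨fun i => (abs_le.1 (habs i)).1, fun i => (abs_le.1 (habs i)).2⟩, by
      rw [Matrix.toLin'_apply, hc]⟩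
  have h2 : polarSet S ⊆ (Matrix.toLin' M) ⁻¹' Set.Icc (fun _ => (-33 : ℝ)) (fun _ => 33) := by
    intro q hq
    have hv : ∀ i, (M *ᵥ q) i = q ⬝ᵥ M i := fun i => dotProduct_comm _ _
    refine ⟨fun i => ?_, fun i => ?_⟩
    · show (-33 : ℝ) ≤ Matrix.toLin' M q i
      rw [Matrix.toLin'_apply, hv]
      have h := hq _ (hbal _ (hrow i))
      rw [dotProduct_smul, smul_eq_mul] at h
      linarith
    · show Matrix.toLin' M q i ≤ (33 : ℝ)
      rw [Matrix.toLin'_apply, hv]
      linarith [hq _ (hrow i)]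
  have v1 := (measure_mono h1).trans (le_of_eq (Measure.addHaar_image_linearMap volume _ _))
  have v2 := (measure_mono (μ := volume) h2).trans (le_of_eq (Measure.addHaar_preimage_linearMap
    volume (f := Matrix.toLin' M) (by rwa [LinearMap.det_toLin']) _))
  rw [LinearMap.det_toLin', Matrix.det_transpose, Real.volume_Icc_pi] at v1
  rw [LinearMap.det_toLin', Real.volume_Icc_pi] at v2
  refine (mul_le_mul' v1 v2).trans (le_of_eq ?_)
  rw [← ENNReal.ofReal_prod_of_nonneg (fun i _ => by norm_num),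
    ← ENNReal.ofReal_prod_of_nonneg (fun i _ => by norm_num),
    ← ENNReal.ofReal_mul (abs_nonneg _), ← ENNReal.ofReal_mul (abs_nonneg _),
    ← ENNReal.ofReal_mul (by positivity)]
  congr 1
  simp only [Finset.prod_const, Finset.card_univ, Fintype.card_fin, polarConst, abs_inv]
  field_simp
  norm_num

variable {W : Set (Fin 3 → ℝ)} {u : (Fin 3 → ℝ) → ℝ} {x₀ p : Fin 3 → ℝ} {h : ℝ}

/-- The gradient of the cap function as a linear form. -/
lemma capGrad_dot (hu : AM W u) {y : Fin 3 → ℝ} (hy : y ∈ W) (v : Fin 3 → ℝ) :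
    capGrad u x₀ p y ⬝ᵥ v = fderiv ℝ u y v - p ⬝ᵥ v := by
  have hd := hu.sm.differentiableAt hu.isOpen hy
  have hlin : HasFDerivAt (fun z : Fin 3 → ℝ => p ⬝ᵥ (z - x₀))
      (∑ i, p i • (ContinuousLinearMap.proj i : (Fin 3 → ℝ) →L[ℝ] ℝ)) y :=
    HasFDerivAt.fun_sum fun i _ =>
      ((hasFDerivAt_apply (𝕜 := ℝ) i y).sub_const (x₀ i)).const_mul (p i)
  have hf : fderiv ℝ (capFun u x₀ p) y = fderiv ℝ u y -
      ∑ i, p i • (ContinuousLinearMap.proj i : (Fin 3 → ℝ) →L[ℝ] ℝ) :=
    ((hd.hasFDerivAt.sub_const (u x₀)).sub hlin).fderiv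
  have hcomp : ∀ i, capGrad u x₀ p y i = fderiv ℝ u y (Pi.single i 1) - p i := fun i => by
    show fderiv ℝ (capFun u x₀ p) y (Pi.single i 1) = _
    rw [hf]
    simp [Pi.single_apply]
  simp only [dotProduct, hcomp, sub_mul, Finset.sum_sub_distrib]
  congr 1
  conv_rhs => rw [pi_eq_sum_univ' v]
  simp [mul_comm]

/-- The gradient inequality for the cap function. -/
lemma capFun_tangent (hu : AM W u) (hc : Convex ℝ W) {y z : Fin 3 → ℝ} (hy : y ∈ W) (hz : z ∈ W) :
    capFun u x₀ p y + capGrad u x₀ p y ⬝ᵥ (z - y) ≤ capFun u x₀ p z := by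
  have h1 := gap_nonneg hu.isOpen hc hu.sm hu.pos hy hz
  have h2 : p ⬝ᵥ (z - y) = p ⬝ᵥ (z - x₀) - p ⬝ᵥ (y - x₀) := by
    rw [← dotProduct_sub, sub_sub_sub_cancel_right]
  rw [capGrad_dot hu hy, h2]
  simp only [tangentGap] at h1
  simp only [capFun]
  linarith

/-- The gradient of the cap function is injective. -/
lemma capGrad_injOn (hu : AM W u) (hc : Convex ℝ W) : InjOn (capGrad u x₀ p) W := by
  intro a ha b hb hab
  by_contra hne
  have h1 := gap_pos hu.isOpen hc hu.sm hu.pos ha hb (Ne.symm hne)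
  have h2 := gap_pos hu.isOpen hc hu.sm hu.pos hb ha hne
  have h3 := capGrad_dot (x₀ := x₀) (p := p) hu ha (b - a)
  have h4 := capGrad_dot (x₀ := x₀) (p := p) hu hb (b - a)
  rw [hab] at h3
  simp only [tangentGap] at h1 h2
  rw [show a - b = -(b - a) by abel, map_neg] at h2
  linarith

lemma hasFDerivAt_capGrad (hu : AM W u) {y : Fin 3 → ℝ} (hy : y ∈ W) :
    HasFDerivAt (capGrad u x₀ p) (Matrix.toLin' (hess u y)ᵀ).toContinuousLinearMap y := by
  have e : capGrad u x₀ p =ᶠ[𝓝 y] fun z i => pd i u z - p i := by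
    filter_upwards [hu.isOpen.mem_nhds hy] with z hz
    funext i
    have h1 := capGrad_dot (x₀ := x₀) (p := p) hu hz (Pi.single i 1)
    simpa [pd] using h1
  refine HasFDerivAt.congr_of_eventuallyEq ?_ e
  refine hasFDerivAt_pi'' fun i => ?_
  refine (((hu.sm.pd hu.isOpen i).differentiableAt hu.isOpen hy).hasFDerivAt.sub_const
    (p i)).congr_fderiv ?_
  ext v
  simp only [ContinuousLinearMap.comp_apply, LinearMap.coe_toContinuousLinearMap',
    ContinuousLinearMap.proj_apply, Matrix.toLin'_apply, Matrix.mulVec, dotProduct,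
    Matrix.transpose_apply]
  conv_lhs => rw [pi_eq_sum_univ' v]
  simp only [map_sum, map_smul, smul_eq_mul]
  exact Finset.sum_congr rfl fun j _ => mul_comm _ _

lemma mem_of_bal (hc : Convex ℝ W) {y : Fin 3 → ℝ} (hy : y ∈ W)
    (hz : x₀ - (1 / 33 : ℝ) • (y - x₀) ∈ W) : x₀ ∈ W := by
  have := hc hy hz (a := 1 / 34) (b := 33 / 34) (by norm_num) (by norm_num) (by norm_num)
  convert this using 1
  ext i
  simp only [Pi.add_apply, Pi.smul_apply, Pi.sub_apply, smul_eq_mul]
  ring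

lemma mem_capSet_center (hc : Convex ℝ W) (hh : 0 < h) (hK : IsCap u x₀ p h W) {y : Fin 3 → ℝ}
    (hy : y ∈ capSet u x₀ p h W) : x₀ ∈ capSet u x₀ p h W :=
  ⟨mem_of_bal hc hy.1 (hK.bal y hy).1, by simp [capFun, hh.le]⟩

/-- On a balanced cap `η ≤ 34`. -/
lemma etaF_le (hu : AM W u) (hc : Convex ℝ W) (hh : 0 < h) (hK : IsCap u x₀ p h W) {y : Fin 3 → ℝ}
    (hy : y ∈ capSet u x₀ p h W) : etaF u x₀ p h y ≤ 34 := by
  have h0 := (mem_capSet_center hc hh hK hy).1
  have hz := hK.bal y hy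
  have h1 := capFun_tangent (x₀ := x₀) (p := p) hu hc h0 hy.1
  have h2 := capFun_tangent (x₀ := x₀) (p := p) hu hc h0 hz.1
  rw [show x₀ - (1 / 33 : ℝ) • (y - x₀) - x₀ = -(1 / 33 : ℝ) • (y - x₀) by
    rw [neg_smul]; abel, dotProduct_smul, smul_eq_mul] at h2
  have h3 : capFun u x₀ p x₀ = 0 := by simp [capFun]
  have h4 : -33 ≤ capFun u x₀ p y / h := by
    rw [le_div_iff₀ hh]; linarith [hz.2]
  simp only [etaF]
  linarith

lemma one_le_psiF (hu : AM W u) (hc : Convex ℝ W) (hh : 0 < h) {y : Fin 3 → ℝ} (hy : y ∈ W)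
    (h0 : x₀ ∈ W) : 1 ≤ psiF u x₀ p h y := by
  have h1 := capFun_tangent (x₀ := x₀) (p := p) hu hc hy h0
  have h3 : capFun u x₀ p x₀ = 0 := by simp [capFun]
  rw [show x₀ - y = -(y - x₀) by abel, dotProduct_neg, dotProduct_comm] at h1
  have h4 : 0 ≤ ((y - x₀) ⬝ᵥ capGrad u x₀ p y - capFun u x₀ p y) / h :=
    div_nonneg (by linarith) hh.le
  simp only [psiF]
  linarith

lemma continuousOn_capGrad (hu : AM W u) : ContinuousOn (capGrad u x₀ p) W :=
  fun _ hy => (hasFDerivAt_capGrad hu hy).continuousAt.continuousWithinAt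

lemma continuousOn_psiF (hu : AM W u) : ContinuousOn (psiF u x₀ p h) W := by
  have h1 := continuousOn_capGrad (x₀ := x₀) (p := p) hu
  have h2 : ContinuousOn u W := hu.sm.continuousOn
  unfold psiF capFun dotProduct
  fun_prop

/-- The gradient image lies in a multiple of the polar of the centred cap. -/
lemma capGrad_mem (hu : AM W u) (hc : Convex ℝ W) (hh : 0 < h) {c : ℝ} {y : Fin 3 → ℝ}
    (hy : y ∈ W) (hψ : psiF u x₀ p h y ≤ c) (hc0 : 0 < c) :
    capGrad u x₀ p y ∈ (c * h) • polarSet ((fun z => z - x₀) '' capSet u x₀ p h W) := by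
  rw [Set.mem_smul_set_iff_inv_smul_mem₀ (mul_pos hc0 hh).ne']
  rintro _ ⟨s, hs, rfl⟩
  have h1 := capFun_tangent (x₀ := x₀) (p := p) hu hc hy hs.1
  rw [show s - y = (s - x₀) - (y - x₀) by abel, dotProduct_sub] at h1
  have h2 : (y - x₀) ⬝ᵥ capGrad u x₀ p y - capFun u x₀ p y ≤ (c - 1) * h := by
    rw [← div_le_iff₀ hh]
    simp only [psiF] at hψ
    linarith
  rw [smul_dotProduct, smul_eq_mul, inv_mul_le_iff₀ (mul_pos hc0 hh)]
  rw [dotProduct_comm (y - x₀)] at h2
  nlinarith [hs.2]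

/-- The ratio of the geometric series of the layers. -/
def layerRatio : ℝ := (2 : ℝ) ^ (-(1 / 5) : ℝ)

lemma layerRatio_lt_one : layerRatio < 1 :=
  Real.rpow_lt_one_of_one_lt_of_neg (by norm_num) (by norm_num)

lemma layerRatio_pos : 0 < layerRatio := Real.rpow_pos_of_pos (by norm_num) _

lemma layer_eq (h : ℝ) (k : ℕ) :
    ((2 : ℝ) ^ k) ^ (-(16 / 5) : ℝ) * ((2 : ℝ) ^ (k + 1) * h) ^ 3 =
      8 * h ^ 3 * layerRatio ^ k := by
  have hX : (0 : ℝ) < (2 : ℝ) ^ k := by positivity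
  have h1 : ((2 : ℝ) ^ k) ^ (-(16 / 5) : ℝ) * ((2 : ℝ) ^ k) ^ 3 = layerRatio ^ k := by
    rw [← Real.rpow_natCast ((2 : ℝ) ^ k) 3, ← Real.rpow_add hX, layerRatio, Real.rpow_pow_comm
      (by norm_num : (0 : ℝ) ≤ 2)]
    norm_num
  rw [← h1]
  ring

/-- The weighted gradient volume of a cap. -/
lemma lintegral_layers (hu : AM W u) (hc : Convex ℝ W) (hh : 0 < h) (hK : IsCap u x₀ p h W) :
    ∫⁻ y in capSet u x₀ p h W,
        ENNReal.ofReal (psiF u x₀ p h y ^ (-(16 / 5) : ℝ) * (hess u y).det) ≤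
      ENNReal.ofReal (8 * h ^ 3 * (1 - layerRatio)⁻¹) *
        volume (polarSet ((fun z => z - x₀) '' capSet u x₀ p h W)) := by
  classical
  set S := capSet u x₀ p h W with hS
  set P := polarSet ((fun z => z - x₀) '' S)
  set ψ := psiF u x₀ p h
  have hSW : S ⊆ W := fun y hy => hy.1
  set A : ℕ → Set (Fin 3 → ℝ) := fun k => S ∩ ψ ⁻¹' Set.Icc (2 ^ k) (2 ^ (k + 1))
  have hAm : ∀ k, MeasurableSet (A k) := fun k =>
    (((continuousOn_psiF hu).mono hSW).preimage_isClosed_of_isClosed hK.cpt.isClosed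
      isClosed_Icc).measurableSet
  have hcov : S ⊆ ⋃ k, A k := fun y hy => by
    obtain ⟨k, hk⟩ := exists_nat_pow_near (one_le_psiF (p := p) hu hc hh hy.1
      (mem_capSet_center hc hh hK hy).1) (by norm_num : (1 : ℝ) < 2)
    exact Set.mem_iUnion.2 ⟨k, hy, hk.1, hk.2.le⟩
  refine (lintegral_mono_set hcov).trans ((lintegral_iUnion_le _ _).trans ?_)
  have hk : ∀ k, ∫⁻ y in A k, ENNReal.ofReal (ψ y ^ (-(16 / 5) : ℝ) * (hess u y).det) ≤
      ENNReal.ofReal (8 * h ^ 3 * layerRatio ^ k) * volume P := by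
    intro k
    have himg : ∫⁻ y in A k, ENNReal.ofReal (hess u y).det ≤
        ENNReal.ofReal ((2 ^ (k + 1) * h) ^ 3) * volume P := by
      calc ∫⁻ y in A k, ENNReal.ofReal (hess u y).det
          = ∫⁻ y in A k,
              ENNReal.ofReal |(Matrix.toLin' (hess u y)ᵀ).toContinuousLinearMap.det| := by
            refine setLIntegral_congr_fun (hAm k) fun y hy => ?_
            show _ = ENNReal.ofReal |LinearMap.det _|
            rw [LinearMap.coe_toContinuousLinearMap, LinearMap.det_toLin',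
              Matrix.det_transpose, abs_of_pos (hu.pos y (hSW hy.1)).det_pos]
        _ = volume (capGrad u x₀ p '' A k) :=
            lintegral_abs_det_fderiv_eq_addHaar_image volume (hAm k)
              (fun y hy => (hasFDerivAt_capGrad hu (hSW hy.1)).hasFDerivWithinAt)
              ((capGrad_injOn hu hc).mono fun y hy => hSW hy.1)
        _ ≤ volume ((2 ^ (k + 1) * h) • P) := measure_mono (Set.image_subset_iff.2 fun y hy =>
            capGrad_mem hu hc hh (hSW hy.1) hy.2.2 (by positivity))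
        _ = _ := by
            rw [Measure.addHaar_smul, Module.finrank_fin_fun, abs_of_nonneg (by positivity)]
    calc ∫⁻ y in A k, ENNReal.ofReal (ψ y ^ (-(16 / 5) : ℝ) * (hess u y).det)
        ≤ ∫⁻ y in A k,
            ENNReal.ofReal (((2 : ℝ) ^ k) ^ (-(16 / 5) : ℝ)) * ENNReal.ofReal (hess u y).det := by
          refine setLIntegral_mono' (hAm k) fun y hy => ?_
          rw [← ENNReal.ofReal_mul (by positivity)]
          exact ENNReal.ofReal_le_ofReal (mul_le_mul_of_nonneg_right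
            (Real.rpow_le_rpow_of_nonpos (by positivity) hy.2.1 (by norm_num))
            (hu.pos y (hSW hy.1)).det_pos.le)
      _ = ENNReal.ofReal (((2 : ℝ) ^ k) ^ (-(16 / 5) : ℝ)) *
            ∫⁻ y in A k, ENNReal.ofReal (hess u y).det :=
          lintegral_const_mul' _ _ ENNReal.ofReal_ne_top
      _ ≤ _ := by
          refine (mul_le_mul' le_rfl himg).trans (le_of_eq ?_)
          rw [← mul_assoc, ← ENNReal.ofReal_mul (by positivity), layer_eq]
  refine (ENNReal.tsum_le_tsum hk).trans (le_of_eq ?_)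
  have hr := layerRatio_pos
  rw [ENNReal.tsum_mul_right, ← ENNReal.ofReal_tsum_of_nonneg (fun k => by positivity)
    ((summable_geometric_of_lt_one hr.le layerRatio_lt_one).mul_left _), tsum_mul_left,
    tsum_geometric_of_lt_one hr.le layerRatio_lt_one]

/-- The right hand side of the integrated certificate on a balanced cap. -/
theorem cap_bound : ∃ C : ℝ, 0 ≤ C ∧
    ∀ {W : Set (Fin 3 → ℝ)} {u : (Fin 3 → ℝ) → ℝ}, AM W u → Convex ℝ W → ∀ x₀ p : Fin 3 → ℝ,
      ∀ h : ℝ, 0 < h → IsCap u x₀ p h W →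
        ∫ y in capSet u x₀ p h W, (max (etaF u x₀ p h y) 0) ^ 28 *
            (psiF u x₀ p h y ^ 2)⁻¹ * (hess u y).det ^ (5 / 8 : ℝ) ≤
          C * h ^ (15 / 8 : ℝ) * (volume (capSet u x₀ p h W)).toReal ^ (-(1 / 4) : ℝ) := by
  have hrl := layerRatio_lt_one
  have hr1 : 0 < 1 - layerRatio := by linarith
  set B : ℝ := 8 * (1 - layerRatio)⁻¹ * polarConst with hB
  have hB0 : 0 ≤ B := by rw [hB, polarConst]; positivity
  refine ⟨34 ^ 28 * (B + 1), by positivity, fun {W u} hu hc x₀ p h hh hK => ?_⟩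
  set S := capSet u x₀ p h W with hS
  set v := (volume S).toReal with hv
  have hSW : S ⊆ W := fun y hy => hy.1
  have hm : MeasurableSet S := hK.cpt.measurableSet
  have hfin : volume S ≠ ⊤ := hK.cpt.measure_lt_top.ne
  rcases eq_or_lt_of_le (show 0 ≤ v from ENNReal.toReal_nonneg) with h0 | hv0
  · have hz : volume S = 0 := by
      rcases (ENNReal.toReal_eq_zero_iff _).1 h0.symm with hh' | hh'
      · exact hh'
      · exact absurd hh' hfin
    rw [setIntegral_measure_zero _ hz]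
    positivity
  have hdet : ContinuousOn (fun y => (hess u y).det) W :=
    (sm_det (msm_hess hu.isOpen hu.sm)).continuousOn
  have hψc : ContinuousOn (psiF u x₀ p h) S := (continuousOn_psiF hu).mono hSW
  have hψ1 : ∀ y ∈ S, 1 ≤ psiF u x₀ p h y := fun y hy =>
    one_le_psiF hu hc hh (hSW hy) (mem_capSet_center hc hh hK hy).1
  set f : (Fin 3 → ℝ) → ℝ := fun y => psiF u x₀ p h y ^ (-(16 / 5) : ℝ) * (hess u y).det
  have hfc : ContinuousOn f S := (hψc.rpow_const fun y hy => Or.inl (by linarith [hψ1 y hy])).mul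
    (hdet.mono hSW)
  have hf0 : ∀ y ∈ S, 0 ≤ f y := fun y hy =>
    mul_nonneg (Real.rpow_nonneg (by linarith [hψ1 y hy]) _) (hu.pos y (hSW hy)).det_pos.le
  have hJ : ∫ y in S, f y ≤ B * h ^ 3 / v := by
    rw [integral_eq_lintegral_of_nonneg_ae ((ae_restrict_mem hm).mono hf0)
      (hfc.aestronglyMeasurable hm)]
    refine ENNReal.toReal_le_of_le_ofReal (by positivity)
      ((lintegral_layers hu hc hh hK).trans ?_)
    have hbalS : ∀ z ∈ (fun z => z - x₀) '' S, -(1 / 33 : ℝ) • z ∈ (fun z => z - x₀) '' S := by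
      rintro _ ⟨y, hy, rfl⟩
      refine ⟨_, hK.bal y hy, ?_⟩
      show x₀ - (1 / 33 : ℝ) • (y - x₀) - x₀ = _
      rw [neg_smul]
      abel
    have hp := vol_mul_vol_polar_le (hK.cpt.image (by fun_prop)) hbalS
    rw [show volume ((fun z => z - x₀) '' S) = volume S by
      rw [show (fun z => z - x₀) '' S = (fun z => z + x₀) ⁻¹' S from
        congrFun (Set.image_eq_preimage_of_inverse (fun z => sub_add_cancel z x₀)
          fun z => add_sub_cancel_right z x₀) S, measure_preimage_add_right]] at hp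
    calc ENNReal.ofReal (8 * h ^ 3 * (1 - layerRatio)⁻¹) *
          volume (polarSet ((fun z => z - x₀) '' S))
        ≤ ENNReal.ofReal (8 * h ^ 3 * (1 - layerRatio)⁻¹) * ENNReal.ofReal (polarConst / v) := by
          refine mul_le_mul' le_rfl ?_
          rw [ENNReal.ofReal_div_of_pos hv0, hv, ENNReal.ofReal_toReal hfin,
            ENNReal.le_div_iff_mul_le (Or.inl fun e => by simp [hv, e] at hv0) (Or.inl hfin),
            mul_comm]
          exact hp
      _ = _ := by
          rw [← ENNReal.ofReal_mul (by positivity)]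
          congr 1
          rw [hB]
          ring
  set t : ℝ := h ^ 3 / v ^ 2 with ht
  have ht0 : 0 < t := by positivity
  have hpt : ∀ y ∈ S, (max (etaF u x₀ p h y) 0) ^ 28 * (psiF u x₀ p h y ^ 2)⁻¹ *
      (hess u y).det ^ (5 / 8 : ℝ) ≤ 34 ^ 28 * t ^ (-(3 / 8) : ℝ) * (f y + t) := by
    intro y hy
    have hψ : 0 < psiF u x₀ p h y := by linarith [hψ1 y hy]
    have hd := (hu.pos y (hSW hy)).det_pos
    have e : (psiF u x₀ p h y ^ 2)⁻¹ * (hess u y).det ^ (5 / 8 : ℝ) = f y ^ (5 / 8 : ℝ) := by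
      show _ = (psiF u x₀ p h y ^ (-(16 / 5) : ℝ) * (hess u y).det) ^ (5 / 8 : ℝ)
      rw [Real.mul_rpow (Real.rpow_nonneg hψ.le _) hd.le, ← Real.rpow_mul hψ.le,
        show (-(16 / 5) : ℝ) * (5 / 8) = -((2 : ℕ) : ℝ) by norm_num, Real.rpow_neg hψ.le,
        Real.rpow_natCast]
    have g := Real.geom_mean_le_arith_mean2_weighted (w₁ := (5 / 8 : ℝ)) (w₂ := 3 / 8)
      (by norm_num) (by norm_num) (hf0 y hy) ht0.le (by norm_num)
    have g' : f y ^ (5 / 8 : ℝ) ≤ t ^ (-(3 / 8) : ℝ) * (f y + t) := by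
      rw [Real.rpow_neg ht0.le, le_inv_mul_iff₀ (by positivity)]
      nlinarith [hf0 y hy]
    rw [mul_assoc _ (psiF u x₀ p h y ^ 2)⁻¹, e, mul_assoc (34 ^ 28 : ℝ)]
    exact mul_le_mul (pow_le_pow_left₀ (le_max_right _ _)
      (max_le (etaF_le hu hc hh hK hy) (by norm_num)) _) g' (Real.rpow_nonneg (hf0 y hy) _)
      (by positivity)
  have hηc : ContinuousOn (etaF u x₀ p h) S := by
    have h2 : ContinuousOn u S := hu.sm.continuousOn.mono hSW
    unfold etaF capFun dotProduct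
    fun_prop
  have hIc : ContinuousOn (fun y => (max (etaF u x₀ p h y) 0) ^ 28 *
      (psiF u x₀ p h y ^ 2)⁻¹ * (hess u y).det ^ (5 / 8 : ℝ)) S :=
    (((hηc.sup continuousOn_const).pow 28).mul
      ((hψc.pow 2).inv₀ fun y hy => (pow_pos (by linarith [hψ1 y hy]) 2).ne')).mul
      ((hdet.mono hSW).rpow_const fun y hy => Or.inl (hu.pos y (hSW hy)).det_pos.ne')
  refine (setIntegral_mono_on (hIc.integrableOn_compact hK.cpt)
    ((continuousOn_const.mul (hfc.add continuousOn_const)).integrableOn_compact hK.cpt) hm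
    hpt).trans ?_
  simp only [Pi.mul_apply, Pi.add_apply]
  rw [integral_const_mul, integral_add (hfc.integrableOn_compact hK.cpt)
    (integrableOn_const hfin), setIntegral_const, smul_eq_mul, measureReal_def, ← hv]
  have e2 : t ^ (-(3 / 8) : ℝ) * (h ^ 3 / v) = h ^ (15 / 8 : ℝ) * v ^ (-(1 / 4) : ℝ) := by
    rw [ht, div_eq_mul_inv (h ^ 3) (v ^ 2), Real.mul_rpow (by positivity) (by positivity),
      ← Real.rpow_natCast h 3, ← Real.rpow_mul hh.le, ← Real.rpow_natCast v 2,
      ← Real.rpow_neg hv0.le, ← Real.rpow_mul hv0.le, div_eq_mul_inv _ v, ← Real.rpow_neg_one v,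
      mul_mul_mul_comm, ← Real.rpow_add hh, ← Real.rpow_add hv0]
    norm_num
  have e3 : v * t = h ^ 3 / v := by
    rw [ht]; field_simp
  have hb : (∫ y in S, f y) + v * t ≤ (B + 1) * (h ^ 3 / v) := by
    rw [e3]
    have : B * h ^ 3 / v = B * (h ^ 3 / v) := by ring
    linarith [hJ]
  calc 34 ^ 28 * t ^ (-(3 / 8) : ℝ) * ((∫ y in S, f y) + v * t)
      ≤ 34 ^ 28 * t ^ (-(3 / 8) : ℝ) * ((B + 1) * (h ^ 3 / v)) :=
        mul_le_mul_of_nonneg_left hb (by positivity)
    _ = 34 ^ 28 * (B + 1) * (t ^ (-(3 / 8) : ℝ) * (h ^ 3 / v)) := by ring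
    _ = _ := by rw [e2]; ring

end

end Vale.Agent.P252.Three
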