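import Vale.Agent.P252.Rigidity.Three.Spec

/-!
# Balanced caps of large height contain a fixed neighbourhood of their centre

A cap balanced around `x₀` contains a fixed ball, so its slope is `O(h)`; hence on a smaller fixed
ball `η ≥ 1/2` and `0 < ψ ≤ 2` once the height is large.
-/

namespace Vale.Agent.P252.Three

open scoped ContDiff Matrix
open MeasureTheory Metric Finset

noncomputable section

variable {W : Set (Fin 3 → ℝ)} {u : (Fin 3 → ℝ) → ℝ} {x₀ : Fin 3 → ℝ}

/-- The gradient of the cap function is `Du - p`. -/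
lemma capGrad_eq_sub {y : Fin 3 → ℝ} (hd : DifferentiableAt ℝ u y) (p : Fin 3 → ℝ) (i : Fin 3) :
    capGrad u x₀ p y i = pd i u y - p i := by
  have hc : ∀ j : Fin 3, DifferentiableAt ℝ (fun z : Fin 3 → ℝ => z j - x₀ j) y := fun j =>
    (differentiableAt_apply j y).sub_const _
  have hl : pd i (fun z : Fin 3 → ℝ => ∑ j, p j * (z j - x₀ j)) y = p i := by
    rw [pd_sum fun j _ => (hc j).const_mul (p j)]
    have : ∀ j : Fin 3, pd i (fun z : Fin 3 → ℝ => p j * (z j - x₀ j)) y =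
        if j = i then p j else 0 := fun j => by
      rw [pd_mul (differentiableAt_const _) (hc j), pd_const, pd_sub (differentiableAt_apply j y)
        (differentiableAt_const _), pd_const, pd, (hasFDerivAt_apply j y).fderiv]
      simp [Pi.single_apply]
    simp [this]
  show pd i (fun z => u z - u x₀ - ∑ j, p j * (z j - x₀ j)) y = pd i u y - p i
  rw [pd_sub (hd.sub_const _) (DifferentiableAt.fun_sum fun j _ => (hc j).const_mul (p j)),
    pd_sub hd (differentiableAt_const _), pd_const, hl, sub_zero]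

/-- `ψ` does not depend on the slope. -/
lemma psiF_eq {y : Fin 3 → ℝ} (hd : DifferentiableAt ℝ u y) (p : Fin 3 → ℝ) (h : ℝ) :
    psiF u x₀ p h y = 1 + ((y - x₀) ⬝ᵥ (fun i => pd i u y) - (u y - u x₀)) / h := by
  have e : capGrad u x₀ p y = (fun i => pd i u y) - p := funext fun i => capGrad_eq_sub hd p i
  rw [psiF, e, dotProduct_sub, dotProduct_comm (y - x₀) p, capFun]
  ring

/-- The dot product against the sup norm. -/
lemma abs_dotProduct_le {a d : Fin 3 → ℝ} {A r : ℝ} (hA : ∀ i, |a i| ≤ A) (hd : ‖d‖ ≤ r)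
    (hA0 : 0 ≤ A) : |a ⬝ᵥ d| ≤ 3 * (A * r) := by
  refine (Finset.abs_sum_le_sum_abs _ _).trans ((Finset.sum_le_card_nsmul _ _ (A * r) ?_).trans
    (by simp))
  intro i _
  rw [abs_mul]
  exact mul_le_mul (hA i) ((Real.norm_eq_abs _ ▸ norm_le_pi_norm d i).trans hd) (abs_nonneg _) hA0

/-- Caps balanced around `x₀` of height at least `h₀` contain a fixed ball around `x₀`, on which
`η ≥ 1/2` and `0 < ψ ≤ 2`. -/
theorem cap_uniform (hu : AM W u) (h0 : x₀ ∈ W) :
    ∃ r h₀ c : ℝ, 0 < r ∧ 0 < h₀ ∧ 0 < c ∧ ∀ h, h₀ ≤ h → ∀ p, IsCap u x₀ p h W →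
      c ≤ (volume (capSet u x₀ p h W)).toReal ∧
      ∀ y ∈ closedBall x₀ r, y ∈ capSet u x₀ p h W ∧ 1 / 2 ≤ etaF u x₀ p h y ∧
        0 < psiF u x₀ p h y ∧ psiF u x₀ p h y ≤ 2 := by
  obtain ⟨r₁, hr₁, hball⟩ := nhds_basis_closedBall.mem_iff.1 (hu.isOpen.mem_nhds h0)
  have hcb := isCompact_closedBall x₀ r₁
  obtain ⟨M, hM⟩ := hcb.exists_bound_of_continuousOn
    ((hu.sm.continuousOn.mono hball).sub (continuousOn_const (c := u x₀)))
  obtain ⟨G, hG⟩ := hcb.exists_bound_of_continuousOn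
    (f := fun y => fun i => pd i u y)
    (continuousOn_pi.2 fun i => ((hu.sm.pd hu.isOpen i).continuousOn).mono hball)
  simp only [Real.norm_eq_abs] at hM
  set K : ℝ := max M 0 + 3 * (max G 0 * r₁) + 1 with hK
  have hM0 : 0 ≤ max M 0 := le_max_right _ _
  have hG0 : 0 ≤ max G 0 := le_max_right _ _
  have hK0 : 0 < K := by positivity
  set ρ : ℝ := r₁ / 33 with hρ
  have hρ0 : 0 < ρ := by positivity
  have hr : ρ / 24 ≤ r₁ := by linarith
  refine ⟨ρ / 24, 4 * K, (2 * (ρ / 24)) ^ 3, by positivity, by positivity, by positivity,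
    fun h hh p hp => ?_⟩
  have hhpos : 0 < h := lt_of_lt_of_le (by positivity) hh
  have hMh : max M 0 ≤ h / 4 := by nlinarith [mul_nonneg hG0 hr₁.le]
  have hu0 : ∀ d : Fin 3 → ℝ, ‖d‖ ≤ r₁ → x₀ + d ∈ W ∧ |u (x₀ + d) - u x₀| ≤ max M 0 :=
    fun d hd => ⟨hball (by simpa [mem_closedBall, dist_eq_norm] using hd),
      (hM _ (by simpa [mem_closedBall, dist_eq_norm] using hd)).trans (le_max_left _ _)⟩
  -- the half ball lies in the cap
  have hhalf : ∀ d : Fin 3 → ℝ, ‖d‖ ≤ r₁ → 0 ≤ p ⬝ᵥ d → x₀ + d ∈ capSet u x₀ p h W :=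
    fun d hd hpd => ⟨(hu0 d hd).1, by
      rw [capFun, add_sub_cancel_left]
      linarith [le_abs_self (u (x₀ + d) - u x₀), (hu0 d hd).2]⟩
  -- the reflection gives a ball
  have hfull : ∀ d : Fin 3 → ℝ, ‖d‖ ≤ ρ → x₀ + d ∈ capSet u x₀ p h W := by
    intro d hd
    rcases le_or_gt 0 (p ⬝ᵥ d) with hp0 | hp0
    · exact hhalf d (hd.trans (by linarith)) hp0
    · have hz : x₀ + (-33 : ℝ) • d ∈ capSet u x₀ p h W := hhalf _
        (by rw [norm_smul]; norm_num; linarith) (by rw [dotProduct_smul, smul_eq_mul]; linarith)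
      have := hp.bal _ hz
      rwa [add_sub_cancel_left, smul_smul, show (1 / 33 : ℝ) * -33 = -1 by norm_num,
        neg_one_smul, sub_neg_eq_add] at this
  -- the slope is `O(h)`
  have hpb : ∀ i, |p i| ≤ 2 * h / ρ := by
    intro i
    have key : ∀ s : ℝ, |s| ≤ ρ → -(p i * s) ≤ 2 * h := fun s hs => by
      have hd : ‖(Pi.single i s : Fin 3 → ℝ)‖ ≤ ρ := by rwa [Pi.norm_single, Real.norm_eq_abs]
      have h1 := (hfull _ hd).2
      rw [capFun, add_sub_cancel_left, dotProduct_single] at h1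
      linarith [neg_abs_le (u (x₀ + Pi.single i s) - u x₀), (hu0 _ (hd.trans (by linarith))).2]
    rw [le_div_iff₀ hρ0]
    rcases le_total 0 (p i) with hi | hi
    · have := key (-ρ) (by rw [abs_neg, abs_of_pos hρ0])
      rw [abs_of_nonneg hi]; linarith
    · have := key ρ (by rw [abs_of_pos hρ0])
      rw [abs_of_nonpos hi]; linarith
  have hin : ∀ y ∈ closedBall x₀ (ρ / 24), y ∈ capSet u x₀ p h W ∧ 1 / 2 ≤ etaF u x₀ p h y ∧
      0 < psiF u x₀ p h y ∧ psiF u x₀ p h y ≤ 2 := by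
    intro y hy
    rw [mem_closedBall, dist_eq_norm] at hy
    have hy1 : y ∈ closedBall x₀ r₁ := by rw [mem_closedBall, dist_eq_norm]; linarith
    have hyW : y ∈ W := hball hy1
    have hdu : |u y - u x₀| ≤ max M 0 := (hM y hy1).trans (le_max_left _ _)
    have hpy : |p ⬝ᵥ (y - x₀)| ≤ h / 4 := by
      refine (abs_dotProduct_le hpb hy (by positivity)).trans (le_of_eq ?_)
      field_simp
      ring
    have hGy : |(y - x₀) ⬝ᵥ fun i => pd i u y| ≤ 3 * (max G 0 * r₁) := by
      rw [dotProduct_comm]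
      refine abs_dotProduct_le (fun i => ?_) (hy.trans hr) hG0
      exact (Real.norm_eq_abs _ ▸ norm_le_pi_norm (fun i => pd i u y) i).trans
        ((hG y hy1).trans (le_max_left _ _))
    have hcf : capFun u x₀ p y ≤ h / 2 := by
      rw [capFun]
      linarith [le_abs_self (u y - u x₀), neg_abs_le (p ⬝ᵥ (y - x₀))]
    refine ⟨⟨hyW, by linarith⟩, ?_, ?_, ?_⟩
    · rw [etaF]
      linarith [(div_le_iff₀ hhpos).2 (show capFun u x₀ p y ≤ 1 / 2 * h by linarith)]
    · rw [psiF_eq (hu.sm.differentiableAt hu.isOpen hyW)]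
      have h1 := (le_div_iff₀ hhpos).2 (show (-(1 / 2) : ℝ) * h ≤
        (y - x₀) ⬝ᵥ (fun i => pd i u y) - (u y - u x₀) by
          linarith [neg_abs_le ((y - x₀) ⬝ᵥ fun i => pd i u y), le_abs_self (u y - u x₀)])
      linarith
    · rw [psiF_eq (hu.sm.differentiableAt hu.isOpen hyW)]
      have h1 := (div_le_iff₀ hhpos).2 (show
        (y - x₀) ⬝ᵥ (fun i => pd i u y) - (u y - u x₀) ≤ 1 * h by
          linarith [le_abs_self ((y - x₀) ⬝ᵥ fun i => pd i u y), neg_abs_le (u y - u x₀)])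
      linarith
  refine ⟨?_, hin⟩
  have hsub : closedBall x₀ (ρ / 24) ⊆ capSet u x₀ p h W := fun y hy => (hin y hy).1
  have hle := ENNReal.toReal_mono hp.cpt.measure_lt_top.ne (measure_mono (μ := volume) hsub)
  rwa [Real.volume_pi_closedBall x₀ (by positivity), Fintype.card_fin,
    ENNReal.toReal_ofReal (by positivity)] at hle

end

end Vale.Agent.P252.Three
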