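import Vale.Agent.P252.Rigidity.Three.Cert.Identity

/-!
# The pointwise certificate inequality for the flux

The flux is a positive definite Gram form in fifteen symmetric tensors built from the jet, plus
terms linear and quadratic in `e₁`, `e₂`; the latter are absorbed by Young's inequality.
-/

namespace Vale.Agent.P252.Three

open Matrix Finset

noncomputable section

namespace Jet

variable (J : Jet)

/-- The squares of the five inner products that occur as multiples of the identity. -/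
def dots2 : ℝ :=
  J.dd 0 0 ^ 2 + J.dd 0 1 ^ 2 + J.dd 0 2 ^ 2 + J.dd 1 1 ^ 2 + J.dd 2 2 ^ 2

lemma sum_sq_scalar (c : ℝ) :
    ∑ i, ∑ a, ((c • (1 : Matrix (Fin 3) (Fin 3) ℝ)) i a) ^ 2 = 3 * c ^ 2 := by
  simp [Matrix.one_apply]

lemma gram_lower : 3 / 5 * J.dots2 ≤ J.gram := by
  have key : ∑ i, ∑ a, (1 / 5 : ℝ) *
      (((J.dd 0 0 • (1 : Matrix (Fin 3) (Fin 3) ℝ)) i a) ^ 2 +
        ((J.dd 0 1 • (1 : Matrix (Fin 3) (Fin 3) ℝ)) i a) ^ 2 +
        ((J.dd 0 2 • (1 : Matrix (Fin 3) (Fin 3) ℝ)) i a) ^ 2 +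
        ((J.dd 1 1 • (1 : Matrix (Fin 3) (Fin 3) ℝ)) i a) ^ 2 +
        ((J.dd 2 2 • (1 : Matrix (Fin 3) (Fin 3) ℝ)) i a) ^ 2) ≤ J.gram := by
    refine Finset.sum_le_sum fun i _ => Finset.sum_le_sum fun a _ => ?_
    refine le_trans ?_ (qForm_lower _ _ _ _ _ _ _ _ _ _ _ _ _ _ _)
    refine mul_le_mul_of_nonneg_left ?_ (by norm_num)
    linarith only [sq_nonneg (J.H i a),
      sq_nonneg ((J.C 0) i a),
      sq_nonneg ((J.C 1) i a),
      sq_nonneg ((J.C 2) i a),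
      sq_nonneg ((J.so 0 0) i a),
      sq_nonneg ((J.so 0 1) i a),
      sq_nonneg ((J.so 0 2) i a),
      sq_nonneg ((J.so 1 1) i a),
      sq_nonneg ((J.so 1 2) i a),
      sq_nonneg ((J.so 2 2) i a)]
  simp only [← Finset.mul_sum, Finset.sum_add_distrib, sum_sq_scalar] at key
  refine le_trans (le_of_eq ?_) key
  simp only [dots2]; ring

end Jet

/-- The certificate inequality. -/
theorem certIneq : CertIneq := by
  refine ⟨1 / 5, 6358249163968818, by norm_num, by norm_num, fun J h => ?_⟩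
  have h0 := J.gram_lower
  simp only [Jet.dots2] at h0
  rw [Jet.flux_eq h]
  have e : J.t ⬝ᵥ J.t = J.dd 0 0 := rfl
  rw [e]
  nlinarith [h0, sq_nonneg (J.dd 0 1), sq_nonneg (J.dd 0 2), sq_nonneg (J.dd 1 1),
    sq_nonneg (J.dd 2 2), sq_nonneg J.e₁, sq_nonneg J.e₂, sq_nonneg (J.e₁ + J.e₂), sq_nonneg (J.e₁ - J.e₂),
    sq_nonneg (J.dd 0 0 + (61445 / 16 : ℝ) * J.e₁),
    sq_nonneg (J.dd 0 0 + (-702373 / 16 : ℝ) * J.e₂),
    sq_nonneg (J.dd 0 1 + (9545775 / 8 : ℝ) * J.e₁),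
    sq_nonneg (J.dd 0 1 + (-54277635 / 8 : ℝ) * J.e₂),
    sq_nonneg (J.dd 0 2 + (-4570815 / 16 : ℝ) * J.e₁),
    sq_nonneg (J.dd 0 2 + (3415815 / 16 : ℝ) * J.e₂),
    sq_nonneg (J.dd 1 1 + (-155516950 : ℝ) * J.e₁),
    sq_nonneg (J.dd 1 1 + (-86913250 : ℝ) * J.e₂),
    sq_nonneg (J.dd 2 2 + (-3763555 / 2 : ℝ) * J.e₁),
    sq_nonneg (J.dd 2 2 + (-1655095 / 2 : ℝ) * J.e₂)]

end

end Vale.Agent.P252.Three
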