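import Vale.Agent.P252.Rigidity.Metric

/-!
# Affine maximal functions: the scalars `Q = |D log det D²u|²` and `s = ⟨D log det D²u, Du⟩`

Norms and inner products are taken in the metric `D²u`.
-/

namespace Vale.Agent.P252.Three

open scoped ContDiff Matrix
open Finset

noncomputable section

variable {n : ℕ}

/-- `log det D²u`. -/
def logDet (u : (Fin n → ℝ) → ℝ) (y : Fin n → ℝ) : ℝ := Real.log (hess u y).det

/-- The squared norm of `D log det D²u`. -/
def qQ (u : (Fin n → ℝ) → ℝ) (y : Fin n → ℝ) : ℝ :=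
  ∑ k, ∑ l, hinv u y k l * (pd k (logDet u) y * pd l (logDet u) y)

/-- The inner product of `D log det D²u` and `Du`. -/
def qS (u : (Fin n → ℝ) → ℝ) (y : Fin n → ℝ) : ℝ :=
  ∑ k, ∑ l, hinv u y k l * (pd k (logDet u) y * pd l u y)

/-- A smooth solution of the affine maximal equation with positive definite Hessian. -/
structure AM (Ω : Set (Fin n → ℝ)) (u : (Fin n → ℝ) → ℝ) : Prop where
  isOpen : IsOpen Ω
  sm : Sm Ω u
  pos : ∀ y ∈ Ω, (hess u y).PosDef
  eq : ∀ y ∈ Ω, ∑ i, ∑ j, (hess u y).det * (hess u y)⁻¹ i j * hess (affineW u) y i j = 0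

end

end Vale.Agent.P252.Three
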