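import Vale.Agent.P252.Rigidity.Three.Spec
import Vale.Agent.P252.Rigidity.Three.Glue
import Vale.Agent.P252.Rigidity.Three.Cap
import Vale.Agent.P252.Rigidity.Three.CapBound
import Vale.Agent.P252.Rigidity.Three.CapUnif

/-!
# Affine maximal functions of three variables: the integrated flux inequality on a cap

The flux, multiplied out, is `η²⁷` times a smooth field, so its extension by zero outside the cap
is `C¹` and has zero total divergence.
-/

namespace Vale.Agent.P252.Three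

open scoped ContDiff Topology Matrix
open MeasureTheory Filter Finset Rigidity

noncomputable section

variable {W : Set (Fin 3 → ℝ)} {u : (Fin 3 → ℝ) → ℝ} {x₀ p : Fin 3 → ℝ} {h : ℝ}

/-- The weight `ψ⁻² (det D²u)^(5/8)` of the cap integrals. -/
def capWeight (u : (Fin 3 → ℝ) → ℝ) (x₀ p : Fin 3 → ℝ) (h : ℝ) (y : Fin 3 → ℝ) : ℝ :=
  (psiF u x₀ p h y ^ 2)⁻¹ * (hess u y).det ^ (5 / 8 : ℝ)

/-- Componentwise smoothness of a vector field. -/
def VSm (W : Set (Fin 3 → ℝ)) (F : (Fin 3 → ℝ) → Fin 3 → ℝ) : Prop := ∀ i, Sm W fun y => F y i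

lemma VSm.add {F G : (Fin 3 → ℝ) → Fin 3 → ℝ} (hF : VSm W F) (hG : VSm W G) :
    VSm W fun y => F y + G y := fun i => (hF i).add (hG i)

lemma VSm.smul {F : (Fin 3 → ℝ) → Fin 3 → ℝ} {f : (Fin 3 → ℝ) → ℝ} (hf : Sm W f) (hF : VSm W F) :
    VSm W fun y => f y • F y := fun i => hf.mul (hF i)

lemma VSm.mulVec {F : (Fin 3 → ℝ) → Fin 3 → ℝ} {M : (Fin 3 → ℝ) → Matrix (Fin 3) (Fin 3) ℝ}
    (hM : MSm W M) (hF : VSm W F) : VSm W fun y => M y *ᵥ F y := fun i =>
  show Sm W fun y => ∑ j, M y i j * F y j from sm_sum _ fun j _ => (hM i j).mul (hF j)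

lemma sm_dotProduct {F G : (Fin 3 → ℝ) → Fin 3 → ℝ} (hF : VSm W F) (hG : VSm W G) :
    Sm W fun y => F y ⬝ᵥ G y := sm_sum _ fun j _ => (hF j).mul (hG j)

/-- A vector field that becomes smooth after multiplication by `f ^ k`. -/
def PoleLE (W : Set (Fin 3 → ℝ)) (f : (Fin 3 → ℝ) → ℝ) (k : ℕ)
    (F : (Fin 3 → ℝ) → Fin 3 → ℝ) : Prop :=
  ∃ S, VSm W S ∧ ∀ y ∈ W, f y ≠ 0 → f y ^ k • F y = S y

lemma PoleLE.add {f : (Fin 3 → ℝ) → ℝ} {k : ℕ} {F G : (Fin 3 → ℝ) → Fin 3 → ℝ}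
    (hF : PoleLE W f k F) (hG : PoleLE W f k G) : PoleLE W f k fun y => F y + G y := by
  obtain ⟨S, hS, eS⟩ := hF
  obtain ⟨T, hT, eT⟩ := hG
  exact ⟨_, hS.add hT, fun y hy h0 => by rw [smul_add, eS y hy h0, eT y hy h0]⟩

lemma PoleLE.smul {f : (Fin 3 → ℝ) → ℝ} {k : ℕ} {F : (Fin 3 → ℝ) → Fin 3 → ℝ} (c : ℝ)
    (hF : PoleLE W f k F) : PoleLE W f k fun y => c • F y := by
  obtain ⟨S, hS, eS⟩ := hF
  exact ⟨_, VSm.smul (sm_const c) hS, fun y hy h0 => by rw [smul_comm, eS y hy h0]⟩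

section

variable (hu : AM W u) (hc : Convex ℝ W) (h0 : x₀ ∈ W)
include hu

lemma sm_capFun : Sm W (capFun u x₀ p) :=
  (hu.sm.sub (sm_const _)).sub (sm_sum _ fun j _ =>
    (sm_const (p j)).mul ((contDiff_apply ℝ ℝ j).contDiffOn.sub (sm_const (x₀ j))))

lemma sm_etaF : Sm W (etaF u x₀ p h) :=
  (sm_const 1).sub ((sm_capFun hu).div_const h)

lemma vsm_capGrad : VSm W (capGrad u x₀ p) := fun i => (sm_capFun hu).pd hu.isOpen i

lemma vsm_sub : VSm W fun y => y - x₀ := fun j =>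
  (contDiff_apply ℝ ℝ j).contDiffOn.sub (sm_const (x₀ j))

lemma sm_psiF : Sm W (psiF u x₀ p h) :=
  (sm_const 1).add (((sm_dotProduct (vsm_sub hu) (vsm_capGrad hu)).sub (sm_capFun hu)).div_const h)

include hc h0

lemma poleLE_covF (hh : 0 < h) (a : Fin 3) :
    PoleLE W (etaF u x₀ p h) 1 (covF u x₀ p h a) := by
  have hτ : VSm W (covF u x₀ p h 0) := fun i => hu.sm_logDet.pd hu.isOpen i
  have hw : VSm W (covF u x₀ p h 2) :=
    VSm.smul ((ContDiffOn.inv ((sm_const h).mul (sm_psiF hu)) fun y hy =>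
      mul_ne_zero hh.ne' (by linarith [one_le_psiF (p := p) hu hc hh hy h0])).neg)
      (VSm.mulVec (msm_hess hu.isOpen hu.sm) (vsm_sub hu))
  fin_cases a
  · exact ⟨_, VSm.smul (sm_etaF hu) hτ, fun y _ _ => by rw [pow_one]; rfl⟩
  · refine ⟨fun y => (-h⁻¹) • capGrad u x₀ p y, VSm.smul (sm_const (-h⁻¹)) (vsm_capGrad hu),
      fun y _ hη => ?_⟩
    show etaF u x₀ p h y ^ 1 •
      ((-(h * etaF u x₀ p h y)⁻¹) • capGrad u x₀ p y) = (-h⁻¹) • capGrad u x₀ p y
    rw [smul_smul]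
    congr 1
    field_simp
  · exact ⟨_, VSm.smul (sm_etaF hu) hw, fun y _ _ => by rw [pow_one]; rfl⟩

lemma poleLE_fldY (hh : 0 < h) : PoleLE W (etaF u x₀ p h) 3 (fldY u x₀ p h) := by
  have hK : ∀ z a b, PoleLE W (etaF u x₀ p h) 3 (fldK u x₀ p h z a b) := fun z a b => by
    obtain ⟨Sz, hz, ez⟩ := poleLE_covF hu hc h0 hh (p := p) z
    obtain ⟨Sa, ha, ea⟩ := poleLE_covF hu hc h0 hh (p := p) a
    obtain ⟨Sb, hb, eb⟩ := poleLE_covF hu hc h0 hh (p := p) b
    refine ⟨_, VSm.smul (sm_dotProduct ha (VSm.mulVec hu.msm_hinv hb)) hz, fun y hy h1 => ?_⟩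
    rw [← ez y hy h1, ← ea y hy h1, ← eb y hy h1]
    simp only [fldK, pow_one, Matrix.mulVec_smul, smul_dotProduct, dotProduct_smul, smul_eq_mul,
      smul_smul]
    congr 1
    ring
  have hH : ∀ z, PoleLE W (etaF u x₀ p h) 3 (fldH u x₀ p h z) := fun z => by
    obtain ⟨Sz, hz, ez⟩ := poleLE_covF hu hc h0 hh (p := p) z
    refine ⟨_, VSm.smul ((sm_etaF (p := p) (h := h) (x₀ := x₀) hu).pow 2)
      (VSm.mulVec (msm_hess hu.isOpen hu.sm_logDet) (VSm.mulVec hu.msm_hinv hz)),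
      fun y hy h1 => ?_⟩
    rw [← ez y hy h1]
    simp only [fldH, pow_one, Matrix.mulVec_smul, smul_smul]
    congr 1
  have hT : ∀ a b, PoleLE W (etaF u x₀ p h) 3 (fldT u x₀ p h a b) := fun a b => by
    obtain ⟨Sa, ha, ea⟩ := poleLE_covF hu hc h0 hh (p := p) a
    obtain ⟨Sb, hb, eb⟩ := poleLE_covF hu hc h0 hh (p := p) b
    have hga := VSm.mulVec hu.msm_hinv ha
    refine ⟨_, VSm.smul (sm_etaF (p := p) (h := h) (x₀ := x₀) hu)
      (VSm.mulVec (M := fun y => ∑ k, (hinv u y *ᵥ Sa y) k • mh u k y) (fun i j => ?_)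
        (VSm.mulVec hu.msm_hinv hb)), fun y hy h1 => ?_⟩
    · simp only [Matrix.sum_apply, Matrix.smul_apply, smul_eq_mul]
      exact sm_sum _ fun k _ => (hga k).mul ((msm_hess hu.isOpen hu.sm).mpd hu.isOpen k i j)
    · have e : ∀ (c : ℝ) (Z : Fin 3 → ℝ), (∑ k, (hinv u y *ᵥ (c • Z)) k • mh u k y) =
          c • ∑ k, (hinv u y *ᵥ Z) k • mh u k y := fun c Z => by
        rw [Matrix.mulVec_smul, Finset.smul_sum]
        exact Finset.sum_congr rfl fun k _ => by rw [Pi.smul_apply, smul_eq_mul, mul_smul]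
      rw [← ea y hy h1, ← eb y hy h1]
      simp only [fldT, pow_one]
      rw [e]
      simp only [Matrix.mulVec_smul, Matrix.smul_mulVec, smul_smul]
      congr 1
      ring
  unfold fldY
  repeat' apply PoleLE.add
  all_goals apply PoleLE.smul
  all_goals first | exact hK _ _ _ | exact hH _ | exact hT _ _

/-- The flux extends to a `C¹` field vanishing outside the cap. -/
lemma exists_ext (hh : 0 < h) :
    ∃ F : Fin 3 → (Fin 3 → ℝ) → ℝ, (∀ i, ContDiffOn ℝ 1 (F i) W) ∧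
      (∀ i, ∀ y ∈ W, etaF u x₀ p h y ≤ 0 → F i y = 0 ∧ pd i (F i) y = 0) ∧
      ∀ i, ∀ y ∈ W, 0 < etaF u x₀ p h y → pd i (F i) y = pd i (fluxF u x₀ p h i) y := by
  obtain ⟨S, hS, eS⟩ := poleLE_fldY hu hc h0 hh (p := p)
  have hB : ∀ i, Sm W fun y => (psiF u x₀ p h y ^ 2)⁻¹ * (hess u y).det ^ (-(3 / 8 : ℝ)) *
      ((hess u y).det * (hinv u y *ᵥ S y) i) := fun i =>
    Sm.mul (Sm.mul (ContDiffOn.inv ((sm_psiF hu).pow 2) fun y hy =>
      pow_ne_zero 2 (by linarith [one_le_psiF (p := p) hu hc hh hy h0]))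
      ((sm_det (msm_hess hu.isOpen hu.sm)).rpow_const_of_ne fun y hy => (hu.det_pos hy).ne'))
      ((sm_det (msm_hess hu.isOpen hu.sm)).mul (VSm.mulVec hu.msm_hinv hS i))
  refine ⟨fun i y => max (etaF u x₀ p h y) 0 ^ (25 + 2) *
    ((psiF u x₀ p h y ^ 2)⁻¹ * (hess u y).det ^ (-(3 / 8 : ℝ)) *
      ((hess u y).det * (hinv u y *ᵥ S y) i)), fun i => ?_, fun i y hy hη => ?_, fun i y hy hη => ?_⟩
  · exact ((contDiff_posPart_pow 25).comp_contDiffOn
      (ContDiffOn.of_le (sm_etaF hu) (by simp))).mul (ContDiffOn.of_le (hB i) (by simp))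
  · have hm : max (etaF u x₀ p h y) 0 = 0 := max_eq_right hη
    refine ⟨by simp [hm], ?_⟩
    have hd : HasFDerivAt (fun z => max (etaF u x₀ p h z) 0 ^ (25 + 2))
        (0 : (Fin 3 → ℝ) →L[ℝ] ℝ) y := by
      refine ((hasDerivAt_posPart_pow 25 (etaF u x₀ p h y)).comp_hasFDerivAt y
        ((sm_etaF hu).differentiableAt hu.isOpen hy).hasFDerivAt).congr_fderiv ?_
      rw [hm]
      simp
    rw [pd_mul hd.differentiableAt ((hB i).differentiableAt hu.isOpen hy), hm, pd, hd.fderiv]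
    simp
  · have hev : ∀ᶠ z in 𝓝 y, z ∈ W ∧ 0 < etaF u x₀ p h z :=
      (eventually_of_mem (hu.isOpen.mem_nhds hy) fun _ hz => hz).and
        (((sm_etaF hu).continuousOn.continuousAt (hu.isOpen.mem_nhds hy)).eventually_const_lt hη)
    refine pd_congr (hev.mono fun z hz => ?_) i
    show max (etaF u x₀ p h z) 0 ^ (25 + 2) *
      ((psiF u x₀ p h z ^ 2)⁻¹ * (hess u z).det ^ (-(3 / 8 : ℝ)) *
        ((hess u z).det * (hinv u z *ᵥ S z) i)) = weightF u x₀ p h z * ((hess u z).det * (hinv u z *ᵥ fldY u x₀ p h z) i)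
    rw [← eS z hz.1 hz.2.ne', Matrix.mulVec_smul, Pi.smul_apply, smul_eq_mul,
      max_eq_left hz.2.le, weightF]
    ring

end

/-- The integrated flux inequality on a balanced cap. -/
theorem cap_integral_le (hF : FluxBound) :
    ∃ ε C : ℝ, 0 < ε ∧ 0 ≤ C ∧ ∀ {W : Set (Fin 3 → ℝ)} {u : (Fin 3 → ℝ) → ℝ}, AM W u →
      Convex ℝ W → ∀ x₀ ∈ W, ∀ p : Fin 3 → ℝ, ∀ h : ℝ, 0 < h → IsCap u x₀ p h W →
        ε * ∫ y in capSet u x₀ p h W,
            max (etaF u x₀ p h y) 0 ^ 30 * capWeight u x₀ p h y * qQ u y ^ 2 ≤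
          C / h ^ 2 * ∫ y in capSet u x₀ p h W,
            max (etaF u x₀ p h y) 0 ^ 28 * capWeight u x₀ p h y := by
  obtain ⟨ε, C, hε, hC, hI⟩ := hF
  refine ⟨ε, C * (1 + 34 ^ 2), hε, by positivity, ?_⟩
  intro W u hu hc x₀ h0 p h hh hcap
  set K := capSet u x₀ p h W
  have hW := hu.isOpen
  have hKW : K ⊆ W := fun y hy => hy.1
  obtain ⟨F, hFs, hFout, hFin⟩ := exists_ext hu hc h0 hh (p := p)
  have hout : ∀ y ∈ W, y ∉ K → etaF u x₀ p h y < 0 := fun y hy hyK => by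
    have hlt : h < capFun u x₀ p y := lt_of_not_ge fun hle => hyK ⟨hy, hle⟩
    rw [etaF, sub_neg, one_lt_div hh]
    exact hlt
  set m : (Fin 3 → ℝ) → ℝ := fun y => max (etaF u x₀ p h y) 0
  have hmc : ContinuousOn m W :=
    (sm_etaF hu).continuousOn.sup continuousOn_const
  have hcw : ContinuousOn (capWeight u x₀ p h) W :=
    (ContinuousOn.inv₀ ((sm_psiF hu).continuousOn.pow 2) fun y hy =>
      pow_ne_zero 2 (by linarith [one_le_psiF (p := p) hu hc hh hy h0])).mul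
      ((sm_det (msm_hess hW hu.sm)).continuousOn.rpow_const fun y hy => Or.inl (hu.det_pos hy).ne')
  set g : (Fin 3 → ℝ) → ℝ := fun y => ε * (m y ^ 30 * capWeight u x₀ p h y * qQ u y ^ 2)
  set k : (Fin 3 → ℝ) → ℝ := fun y =>
    C * (1 + 34 ^ 2) / h ^ 2 * (m y ^ 28 * capWeight u x₀ p h y)
  set D : (Fin 3 → ℝ) → ℝ := fun y => ∑ i, pd i (F i) y
  have hgc : ContinuousOn g W :=
    continuousOn_const.mul (((hmc.pow 30).mul hcw).mul (hu.sm_qQ.continuousOn.pow 2))
  have hkc : ContinuousOn k W := continuousOn_const.mul ((hmc.pow 28).mul hcw)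
  have hm0 : ∀ y ∈ W, y ∉ K → m y = 0 := fun y hy hyK => max_eq_right (hout y hy hyK).le
  have hg0 : ∀ y ∈ W, y ∉ K → g y = 0 := fun y hy hyK => by simp [g, hm0 y hy hyK]
  have hk0 : ∀ y ∈ W, y ∉ K → k y = 0 := fun y hy hyK => by simp [k, hm0 y hy hyK]
  have hF0 : ∀ i, ∀ y ∈ W, y ∉ K → F i y = 0 := fun i y hy hyK =>
    (hFout i y hy (hout y hy hyK).le).1
  have gI := integrableOn_of_vanish hW hcap.cpt hKW hgc hg0
  have kI := integrableOn_of_vanish hW hcap.cpt hKW hkc hk0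
  have DI : IntegrableOn D W := integrableOn_of_vanish hW hcap.cpt hKW
    (continuousOn_finsetSum _ fun i _ => continuousOn_pd hW (hFs i) i)
    fun y hy hyK => Finset.sum_eq_zero fun i _ =>
      pd_eq_zero_of_notMem hW hcap.cpt (hF0 i) i hy hyK
  have hpt : ∀ y ∈ W, g y - k y ≤ D y := by
    intro y hy
    rcases le_or_gt (etaF u x₀ p h y) 0 with hη | hη
    · simp [g, k, D, m, max_eq_right hη, fun i => (hFout i y hy hη).2]
    · set η := etaF u x₀ p h y
      set ψ := psiF u x₀ p h y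
      set d := (hess u y).det
      have hψ : 1 ≤ ψ := one_le_psiF hu hc hh hy h0
      have hd : 0 < d := hu.det_pos hy
      have hyK : y ∈ K := by
        by_contra hyK
        linarith [hout y hy hyK]
      have hη34 : η ≤ 34 := etaF_le hu hc hh hcap hyK
      have hkey := hI hu x₀ p h hh y hy hη (by linarith)
      have hbd : η ^ 30 * (((h * η)⁻¹) ^ 2 + ((h * ψ)⁻¹) ^ 2) ≤ (1 + 34 ^ 2) / h ^ 2 * η ^ 28 := by
        have e1 : η ^ 30 * ((h * η)⁻¹) ^ 2 = η ^ 28 / h ^ 2 := by field_simp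
        have e2 : η ^ 30 * ((h * ψ)⁻¹) ^ 2 ≤ 34 ^ 2 * η ^ 28 / h ^ 2 := by
          rw [inv_pow, ← div_eq_mul_inv]
          gcongr ?_ / ?_
          · calc η ^ 30 = η ^ 2 * η ^ 28 := by ring
              _ ≤ 34 ^ 2 * η ^ 28 := by gcongr
          · exact pow_le_pow_left₀ hh.le (le_mul_of_one_le_right hh.le hψ) 2
        rw [mul_add, e1]
        refine (add_le_add_right e2 _).trans (le_of_eq ?_)
        ring
      have hcw0 : 0 ≤ capWeight u x₀ p h y := mul_nonneg (by positivity) (Real.rpow_nonneg hd.le _)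
      have e : weightF u x₀ p h y * d = η ^ 30 * capWeight u x₀ p h y := by
        rw [weightF, capWeight, mul_assoc, mul_assoc, ← Real.rpow_add_one hd.ne']
        norm_num [η, ψ, d]
      rw [e] at hkey
      simp only [g, k, D, show m y = η from max_eq_left hη.le, hFin _ y hy hη]
      refine le_trans ?_ hkey
      rw [show etaF u x₀ p h y = η from rfl, show psiF u x₀ p h y = ψ from rfl]
      linear_combination mul_le_mul_of_nonneg_left hbd (mul_nonneg hC hcw0)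
  have hdiv : ∫ y in W, D y = 0 := setIntegral_div_eq_zero hW hcap.cpt hKW hFs hF0
  have h1 := setIntegral_mono_on (gI.sub kI) DI hW.measurableSet hpt
  rw [hdiv, integral_sub' gI kI, sub_nonpos,
    setIntegral_eq_of_subset_of_forall_sdiff_eq_zero hW.measurableSet hKW
      (fun y hy => hg0 y hy.1 hy.2),
    setIntegral_eq_of_subset_of_forall_sdiff_eq_zero hW.measurableSet hKW
      (fun y hy => hk0 y hy.1 hy.2)] at h1
  simpa only [g, k, integral_const_mul] using h1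

/-- `D log det D²u` vanishes everywhere, given the pointwise flux inequality. -/
theorem qQ_eq_zero_of_fluxBound (hF : FluxBound) (hu : AM W u) (hc : Convex ℝ W)
    (hcl : ∀ R, IsClosed {x | x ∈ W ∧ u x ≤ R}) (h0 : x₀ ∈ W) : qQ u x₀ = 0 := by
  obtain ⟨ε, C, hε, hC, hI⟩ := cap_integral_le hF
  obtain ⟨C₂, hC₂, hB⟩ := cap_bound
  obtain ⟨r, h₁, c, hr, hh₁, hc0, hU⟩ := cap_uniform hu h0
  have hW := hu.isOpen
  set f : (Fin 3 → ℝ) → ℝ := fun y => (hess u y).det ^ (5 / 8 : ℝ) * qQ u y ^ 2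
  have hfnn : ∀ y ∈ W, 0 ≤ f y := fun y hy =>
    mul_nonneg (Real.rpow_nonneg (hu.det_pos hy).le _) (sq_nonneg _)
  have hfc : ContinuousOn f W :=
    ((sm_det (msm_hess hW hu.sm)).continuousOn.rpow_const fun y hy =>
      Or.inl (hu.det_pos hy).ne').mul (hu.sm_qQ.continuousOn.pow 2)
  obtain ⟨p₁, hp₁⟩ := exists_isCap hW hc hu.sm hu.pos hcl h0 hh₁
  have hBW : Metric.closedBall x₀ r ⊆ W := fun y hy => ((hU h₁ le_rfl p₁ hp₁).2 y hy).1.1
  have hfI : IntegrableOn f (Metric.closedBall x₀ r) :=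
    (hfc.mono hBW).integrableOn_compact (isCompact_closedBall x₀ r)
  set I := ∫ y in Metric.closedBall x₀ r, f y
  set A := C * C₂ * c ^ (-(1 / 4) : ℝ)
  have hA : ∀ h, h₁ ≤ h → ε * ((1 / 2) ^ 30 / 4) * I ≤ A * h ^ (-(1 / 8) : ℝ) := by
    intro h hh1
    have hh : 0 < h := hh₁.trans_le hh1
    obtain ⟨p, hp⟩ := exists_isCap hW hc hu.sm hu.pos hcl h0 hh
    obtain ⟨hvol, hball⟩ := hU h hh1 p hp
    set K := capSet u x₀ p h W
    have hKW : K ⊆ W := fun y hy => hy.1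
    set g : (Fin 3 → ℝ) → ℝ := fun y =>
      max (etaF u x₀ p h y) 0 ^ 30 * capWeight u x₀ p h y * qQ u y ^ 2
    have hgc : ContinuousOn g W :=
      ((((sm_etaF hu).continuousOn.sup continuousOn_const).pow 30).mul
        ((ContinuousOn.inv₀ ((sm_psiF hu).continuousOn.pow 2) fun y hy =>
          pow_ne_zero 2 (by linarith [one_le_psiF (p := p) hu hc hh hy h0])).mul
          ((sm_det (msm_hess hW hu.sm)).continuousOn.rpow_const fun y hy =>
            Or.inl (hu.det_pos hy).ne'))).mul (hu.sm_qQ.continuousOn.pow 2)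
    have hgI : IntegrableOn g K := (hgc.mono hKW).integrableOn_compact hp.cpt
    have hgnn : ∀ y ∈ K, 0 ≤ g y := fun y hy =>
      mul_nonneg (mul_nonneg (pow_nonneg (le_max_right _ _) _)
        (mul_nonneg (inv_nonneg.2 (sq_nonneg _)) (Real.rpow_nonneg (hu.det_pos hy.1).le _)))
        (sq_nonneg _)
    have hsub : Metric.closedBall x₀ r ⊆ K := fun y hy => (hball y hy).1
    have h2 : (1 / 2) ^ 30 / 4 * I ≤ ∫ y in K, g y := by
      rw [← integral_const_mul]
      refine (setIntegral_mono_on (hfI.const_mul _) (hgI.mono_set hsub)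
        measurableSet_closedBall fun y hy => ?_).trans (setIntegral_mono_set hgI
          ((ae_restrict_mem hp.cpt.measurableSet).mono hgnn) hsub.eventuallyLE)
      obtain ⟨-, hη, hψ, hψ2⟩ := hball y hy
      have e1 : (1 / 2 : ℝ) ^ 30 ≤ max (etaF u x₀ p h y) 0 ^ 30 :=
        pow_le_pow_left₀ (by norm_num) (hη.trans (le_max_left _ _)) 30
      have e2 : (1 / 4 : ℝ) ≤ (psiF u x₀ p h y ^ 2)⁻¹ := by
        rw [one_div]
        exact inv_anti₀ (by positivity) (by nlinarith)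
      calc (1 / 2) ^ 30 / 4 * f y = (1 / 2) ^ 30 * (1 / 4) * f y := by ring
        _ ≤ max (etaF u x₀ p h y) 0 ^ 30 * (psiF u x₀ p h y ^ 2)⁻¹ * f y :=
          mul_le_mul_of_nonneg_right (mul_le_mul e1 e2 (by norm_num) (by positivity))
            (hfnn y (hBW hy))
        _ = g y := by simp only [g, f, capWeight]; ring
    have h3 : ∫ y in K, max (etaF u x₀ p h y) 0 ^ 28 * capWeight u x₀ p h y ≤
        C₂ * h ^ (15 / 8 : ℝ) * c ^ (-(1 / 4) : ℝ) := by
      simp only [capWeight, ← mul_assoc]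
      exact (hB hu hc x₀ p h hh hp).trans (mul_le_mul_of_nonneg_left
        (Real.rpow_le_rpow_of_nonpos hc0 hvol (by norm_num))
        (mul_nonneg hC₂ (Real.rpow_nonneg hh.le _)))
    calc ε * ((1 / 2) ^ 30 / 4) * I ≤ ε * ∫ y in K, g y := by
          rw [mul_assoc]; exact mul_le_mul_of_nonneg_left h2 hε.le
      _ ≤ C / h ^ 2 * (C₂ * h ^ (15 / 8 : ℝ) * c ^ (-(1 / 4) : ℝ)) :=
          (hI hu hc x₀ h0 p h hh hp).trans (mul_le_mul_of_nonneg_left h3 (by positivity))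
      _ = A * h ^ (-(1 / 8) : ℝ) := by
          rw [show (-(1 / 8) : ℝ) = 15 / 8 - (2 : ℕ) by norm_num, Real.rpow_sub hh,
            Real.rpow_natCast]
          ring
  have hI0 : I ≤ 0 := by
    have hlim : Tendsto (fun h : ℝ => A * h ^ (-(1 / 8) : ℝ)) atTop (𝓝 0) := by
      simpa using (tendsto_rpow_neg_atTop (by norm_num : (0 : ℝ) < 1 / 8)).const_mul A
    have := ge_of_tendsto hlim ((eventually_ge_atTop h₁).mono hA)
    exact nonpos_of_mul_nonpos_right this (by positivity)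
  by_contra hne
  have hpos : 0 < f x₀ :=
    mul_pos (Real.rpow_pos_of_pos (hu.det_pos h0) _) (by positivity)
  obtain ⟨s, hs, hsball⟩ := Metric.mem_nhds_iff.1 (Filter.inter_mem
    (Metric.closedBall_mem_nhds x₀ hr)
    ((hfc.continuousAt (hW.mem_nhds h0)).eventually_const_le (half_lt_self hpos)))
  have hsub : Metric.ball x₀ s ⊆ Metric.closedBall x₀ r := fun y hy => (hsball hy).1
  have h4 := setIntegral_mono_on (μ := volume) (f := fun _ => f x₀ / 2)
    (integrableOn_const measure_ball_lt_top.ne) (hfI.mono_set hsub) measurableSet_ball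
    fun y hy => (hsball hy).2
  have h5 := setIntegral_mono_set hfI ((ae_restrict_mem measurableSet_closedBall).mono
    fun y hy => hfnn y (hBW hy)) hsub.eventuallyLE
  rw [setIntegral_const, smul_eq_mul] at h4
  have h6 : 0 < volume.real (Metric.ball x₀ s) * (f x₀ / 2) :=
    mul_pos (ENNReal.toReal_pos (Metric.measure_ball_pos volume x₀ hs).ne' measure_ball_lt_top.ne)
      (by positivity)
  linarith

/-- Given the pointwise flux inequality, an affine maximal function of three variables on a convex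
domain with closed sublevel sets is an entire quadratic polynomial. -/
theorem rigidity_three_of_fluxBound (hF : FluxBound) (hu : AM W u) (hne : W.Nonempty)
    (hc : Convex ℝ W) (hcl : ∀ R, IsClosed {x | x ∈ W ∧ u x ≤ R}) :
    W = Set.univ ∧ IsQuadraticPoly u := by
  obtain ⟨x₁, h1⟩ := hne
  have hconst := eq_const_of_pd_eq_zero hu.isOpen hc.isPreconnected hu.sm_logDet
    (fun y hy k => hu.pd_logDet_eq_zero hy (qQ_eq_zero_of_fluxBound hF hu hc hcl hy) k) h1
  exact entire_quadratic_of_det_const (d := (hess u x₁).det) (by norm_num) hu.isOpen ⟨x₁, h1⟩ hc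
    hu.sm hu.pos hcl fun y hy =>
      Real.log_injOn_pos (Set.mem_Ioi.2 (hu.det_pos hy)) (Set.mem_Ioi.2 (hu.det_pos h1))
        (hconst y hy)

/-- The same for a Euclidean complete graph. -/
theorem rigidity_three_complete_of_fluxBound (hF : FluxBound) (hu : AM W u) (hne : W.Nonempty)
    (hc : Convex ℝ W) (hcomp : GraphComplete W u) : W = Set.univ ∧ IsQuadraticPoly u :=
  rigidity_three_of_fluxBound hF hu hne hc
    (isClosed_sublevel_of_complete hu.isOpen hc hu.sm hu.pos hcomp)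

end

end Vale.Agent.P252.Three
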