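import Vale.Agent.P252.Rigidity.Three.PointwiseBasic

/-!
# Affine maximal functions of three variables: the divergence of the flux

`tr (G ∇F)` of every field is computed at a general point and carried to the normalised jet by a
matrix `B` with `B Bᵀ = G`.
-/

namespace Vale.Agent.P252.Three

open scoped ContDiff Topology Matrix
open Finset Rigidity

noncomputable section

variable {W : Set (Fin 3 → ℝ)} {u : (Fin 3 → ℝ) → ℝ} {x₀ p : Fin 3 → ℝ} {h : ℝ} {y : Fin 3 → ℝ}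

variable (u x₀ p h)

/-- `D³u(Z_a, ·, ·)`. -/
def covC (a : Fin 3) (y : Fin 3 → ℝ) : Matrix (Fin 3) (Fin 3) ℝ :=
  ∑ k, (hinv u y *ᵥ covF u x₀ p h a y) k • mh u k y

/-- The derivatives of the three covectors. -/
def covD (a : Fin 3) (y : Fin 3 → ℝ) : Matrix (Fin 3) (Fin 3) ℝ :=
  ![hess (logDet u) y,
    -Matrix.vecMulVec (covF u x₀ p h 1 y) (covF u x₀ p h 1 y) -
      (h * etaF u x₀ p h y)⁻¹ • hess u y,
    covC u x₀ p h 2 y + Matrix.vecMulVec (covF u x₀ p h 2 y) (covF u x₀ p h 2 y) -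
      (h * psiF u x₀ p h y)⁻¹ • hess u y] a

/-- The derivatives of the three vectors `G Z_a`. -/
def covU (a : Fin 3) (y : Fin 3 → ℝ) : Matrix (Fin 3) (Fin 3) ℝ :=
  (covD u x₀ p h a y - covC u x₀ p h a y) * hinv u y

/-- The logarithmic gradient of the weight. -/
def covW (y : Fin 3 → ℝ) : Fin 3 → ℝ :=
  (30 : ℝ) • covF u x₀ p h 1 y + (2 : ℝ) • covF u x₀ p h 2 y +
    (-3 / 8 : ℝ) • covF u x₀ p h 0 y

/-- The normalised jet for a congruence `B`. -/
def jetAt (B : Matrix (Fin 3) (Fin 3) ℝ) (y : Fin 3 → ℝ) : Jet where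
  T k := ∑ l, B l k • (Bᵀ * mh u l y * B)
  H := Bᵀ * hess (logDet u) y * B
  t := Bᵀ *ᵥ covF u x₀ p h 0 y
  v := Bᵀ *ᵥ covF u x₀ p h 1 y
  w := Bᵀ *ᵥ covF u x₀ p h 2 y
  e₁ := (h * etaF u x₀ p h y)⁻¹
  e₂ := (h * psiF u x₀ p h y)⁻¹

variable {u x₀ p h}

/-- The hypotheses at every point of the domain. -/
structure Dom (W : Set (Fin 3 → ℝ)) (u : (Fin 3 → ℝ) → ℝ) (x₀ p : Fin 3 → ℝ) (h : ℝ) : Prop where
  am : AM W u
  hpos : 0 < h
  eta : ∀ z ∈ W, 0 < etaF u x₀ p h z
  psi : ∀ z ∈ W, 0 < psiF u x₀ p h z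

variable (D : Dom W u x₀ p h)
include D

lemma vsm_covF (a : Fin 3) : VSm W (covF u x₀ p h a) := by
  have hu := D.am
  fin_cases a
  · exact fun i => hu.sm_logDet.pd hu.isOpen i
  · exact VSm.smul ((ContDiffOn.inv ((sm_const h).mul (sm_etaF hu)) fun z hz =>
      mul_ne_zero D.hpos.ne' (D.eta z hz).ne').neg) (vsm_capGrad hu)
  · exact VSm.smul ((ContDiffOn.inv ((sm_const h).mul (sm_psiF hu)) fun z hz =>
      mul_ne_zero D.hpos.ne' (D.psi z hz).ne').neg)
      (VSm.mulVec (msm_hess hu.isOpen hu.sm) (vsm_sub hu))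

lemma vsm_ginv_covF (a : Fin 3) : VSm W fun z => hinv u z *ᵥ covF u x₀ p h a z :=
  VSm.mulVec D.am.msm_hinv (vsm_covF D a)

lemma msm_covC (a : Fin 3) : MSm W (covC u x₀ p h a) := fun i j => by
  show Sm W fun z => (∑ k, (hinv u z *ᵥ covF u x₀ p h a z) k • mh u k z) i j
  simp only [Matrix.sum_apply, Matrix.smul_apply, smul_eq_mul]
  exact sm_sum _ fun k _ => (vsm_ginv_covF D a k).mul (msm_mh' D.am k i j)

omit D

lemma pd_coord (i j : Fin 3) :
    pd i (fun z : Fin 3 → ℝ => z j - x₀ j) y = if j = i then 1 else 0 := by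
  rw [pd, ((hasFDerivAt_apply (𝕜 := ℝ) j y).sub_const (x₀ j)).fderiv]
  simp [Pi.single_apply]

include D

variable (hy : y ∈ W)
include hy

lemma pd_capGrad (i j : Fin 3) :
    pd i (fun z => capGrad u x₀ p z j) y = hess u y i j := by
  have hu := D.am
  rw [pd_congr_on hu.isOpen hy (g := fun z => pd j u z - p j)
      (fun z hz => capGrad_eq_sub (hu.sm.differentiableAt hu.isOpen hz) p j),
    pd_sub ((hu.sm.pd hu.isOpen j).differentiableAt hu.isOpen hy) (differentiableAt_const _),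
    pd_const, sub_zero]
  rfl

lemma grd_etaF : grd (etaF u x₀ p h) y = (-h⁻¹) • capGrad u x₀ p y := by
  have hu := D.am
  funext i
  show pd i (fun z => 1 - capFun u x₀ p z / h) y = _
  simp only [div_eq_mul_inv]
  rw [pd_sub (differentiableAt_const _)
      ((((sm_capFun hu).differentiableAt hu.isOpen hy)).mul_const _),
    pd_const, pd_mul ((sm_capFun hu).differentiableAt hu.isOpen hy) (differentiableAt_const _),
    pd_const]
  simp [capGrad]
  ring

lemma grd_psiF : grd (psiF u x₀ p h) y = h⁻¹ • (hess u y *ᵥ (y - x₀)) := by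
  have hu := D.am
  have hd : DifferentiableAt ℝ (fun z => (z - x₀) ⬝ᵥ capGrad u x₀ p z) y :=
    (sm_dotProduct (vsm_sub hu) (vsm_capGrad hu)).differentiableAt hu.isOpen hy
  have hc : DifferentiableAt ℝ (capFun u x₀ p) y := (sm_capFun hu).differentiableAt hu.isOpen hy
  funext i
  show pd i (fun z => 1 + ((z - x₀) ⬝ᵥ capGrad u x₀ p z - capFun u x₀ p z) / h) y = _
  simp only [div_eq_mul_inv]
  rw [pd_add (differentiableAt_const _) ((hd.fun_sub hc).mul_const _), pd_const,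
    pd_mul (hd.fun_sub hc) (differentiableAt_const _), pd_const, pd_sub hd hc]
  have e := congrFun (grd_dotProduct hu.isOpen hy (vsm_sub (x₀ := x₀) hu)
    (vsm_capGrad (x₀ := x₀) (p := p) hu)) i
  have e1 : ∀ j, vd (fun z => z - x₀) y i j = if j = i then 1 else 0 := fun j => pd_coord i j
  have e2 : ∀ j, vd (capGrad u x₀ p) y i j = hess u y i j := fun j => pd_capGrad D hy i j
  simp only [grd, Pi.add_apply, Matrix.mulVec, dotProduct, e1, e2] at e ⊢
  rw [e]
  have e3 : ∑ j, (if j = i then (1 : ℝ) else 0) * capGrad u x₀ p y j = pd i (capFun u x₀ p) y := by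
    simp [capGrad]
  rw [e3]
  simp [Matrix.mulVec, dotProduct]
  ring

lemma covC_transpose (a : Fin 3) : (covC u x₀ p h a y)ᵀ = covC u x₀ p h a y := by
  simp only [covC, Matrix.transpose_sum, Matrix.transpose_smul,
    fun k => (sym3_mh D.am hy).transpose k]

lemma covC_apply (a i j : Fin 3) :
    covC u x₀ p h a y i j = (mh u i y *ᵥ (hinv u y *ᵥ covF u x₀ p h a y)) j := by
  simp only [covC, Matrix.sum_apply, Matrix.smul_apply, smul_eq_mul, Matrix.mulVec, dotProduct]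
  refine sum_congr rfl fun k _ => ?_
  rw [mul_comm]
  congr 1
  exact ((sym3_mh D.am hy).s12 k i j).trans ((sym3_mh D.am hy).s23 i k j)

/-- The derivatives of the three covectors. -/
lemma vd_covF (a : Fin 3) : vd (covF u x₀ p h a) y = covD u x₀ p h a y := by
  have hu := D.am
  have hW := hu.isOpen
  fin_cases a
  · rfl
  · have hf : Sm W fun z => -(h * etaF u x₀ p h z)⁻¹ :=
      (ContDiffOn.inv ((sm_const h).mul (sm_etaF hu)) fun z hz =>
        mul_ne_zero D.hpos.ne' (D.eta z hz).ne').neg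
    show vd (fun z => (-(h * etaF u x₀ p h z)⁻¹) • capGrad u x₀ p z) y = _
    rw [vd_smul hW hy hf (vsm_capGrad hu)]
    have hη := mul_ne_zero D.hpos.ne' (D.eta y hy).ne'
    have hd : DifferentiableAt ℝ (fun z => h * etaF u x₀ p h z) y :=
      ((sm_const h).mul (sm_etaF hu)).differentiableAt hW hy
    have e : ∀ i, pd i (fun z => -(h * etaF u x₀ p h z)⁻¹) y =
        -((h * etaF u x₀ p h y)⁻¹) ^ 2 * capGrad u x₀ p y i := by
      intro i
      have e0 := congrFun (grd_etaF D hy) i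
      simp only [grd, Pi.smul_apply, smul_eq_mul] at e0
      have : pd i (fun z => -(h * etaF u x₀ p h z)⁻¹) y =
          ((h * etaF u x₀ p h y) ^ 2)⁻¹ * pd i (fun z => h * etaF u x₀ p h z) y := by
        show fderiv ℝ (fun z => -(h * etaF u x₀ p h z)⁻¹) y (Pi.single i 1) = _
        rw [show (fun z => -(h * etaF u x₀ p h z)⁻¹) =
          -((fun r : ℝ => r⁻¹) ∘ fun z => h * etaF u x₀ p h z) from rfl]
        rw [((hasDerivAt_inv hη).comp_hasFDerivAt (f := fun z => h * etaF u x₀ p h z) y hd.hasFDerivAt).neg.fderiv]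
        simp [pd]
      rw [this, pd_mul (differentiableAt_const _) ((sm_etaF hu).differentiableAt hW hy), pd_const,
        e0]
      field_simp [D.hpos.ne', (D.eta y hy).ne']
      ring
    ext i j
    show pd i (fun z => -(h * etaF u x₀ p h z)⁻¹) y * capGrad u x₀ p y j +
      (-(h * etaF u x₀ p h y)⁻¹) * pd i (fun z => capGrad u x₀ p z j) y =
      -(covF u x₀ p h 1 y i * covF u x₀ p h 1 y j) - (h * etaF u x₀ p h y)⁻¹ * hess u y i j
    rw [e i, pd_capGrad D hy]
    simp [covF]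
    ring
  · have hf : Sm W fun z => -(h * psiF u x₀ p h z)⁻¹ :=
      (ContDiffOn.inv ((sm_const h).mul (sm_psiF hu)) fun z hz =>
        mul_ne_zero D.hpos.ne' (D.psi z hz).ne').neg
    show vd (fun z => (-(h * psiF u x₀ p h z)⁻¹) • (hess u z *ᵥ (z - x₀))) y = _
    rw [vd_smul hW hy hf (VSm.mulVec (msm_hess hW hu.sm) (vsm_sub hu))]
    have hψ := mul_ne_zero D.hpos.ne' (D.psi y hy).ne'
    have hd : DifferentiableAt ℝ (fun z => h * psiF u x₀ p h z) y :=
      ((sm_const h).mul (sm_psiF hu)).differentiableAt hW hy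
    have e : ∀ i, pd i (fun z => -(h * psiF u x₀ p h z)⁻¹) y =
        ((h * psiF u x₀ p h y)⁻¹) ^ 2 * (hess u y *ᵥ (y - x₀)) i := by
      intro i
      have e0 := congrFun (grd_psiF D hy) i
      simp only [grd, Pi.smul_apply, smul_eq_mul] at e0
      have : pd i (fun z => -(h * psiF u x₀ p h z)⁻¹) y =
          ((h * psiF u x₀ p h y) ^ 2)⁻¹ * pd i (fun z => h * psiF u x₀ p h z) y := by
        show fderiv ℝ (fun z => -(h * psiF u x₀ p h z)⁻¹) y (Pi.single i 1) = _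
        rw [show (fun z => -(h * psiF u x₀ p h z)⁻¹) =
          -((fun r : ℝ => r⁻¹) ∘ fun z => h * psiF u x₀ p h z) from rfl]
        rw [((hasDerivAt_inv hψ).comp_hasFDerivAt (f := fun z => h * psiF u x₀ p h z) y hd.hasFDerivAt).neg.fderiv]
        simp [pd]
      rw [this, pd_mul (differentiableAt_const _) ((sm_psiF hu).differentiableAt hW hy), pd_const,
        e0]
      field_simp [D.hpos.ne', (D.psi y hy).ne']
      ring
    have e1 : ∀ i j, vd (fun z => z - x₀) y i j = if j = i then 1 else 0 := fun i j => pd_coord i j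
    have e2 : ∀ i j, vd (fun z => hess u z *ᵥ (z - x₀)) y i j =
        (mh u i y *ᵥ (y - x₀)) j + hess u y j i := fun i j => by
      rw [vd_mulVec hW hy (msm_hess hW hu.sm) (vsm_sub hu)]
      congr 1
      simp [Matrix.mulVec, dotProduct, e1]
    have hs : ∀ i j, hess u y j i = hess u y i j := fun i j =>
      congrFun (congrFun (hess_symm hW hu.sm hy) i) j
    have e3 : hinv u y *ᵥ covF u x₀ p h 2 y = (-(h * psiF u x₀ p h y)⁻¹) • (y - x₀) := by
      show hinv u y *ᵥ ((-(h * psiF u x₀ p h y)⁻¹) • (hess u y *ᵥ (y - x₀))) = _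
      rw [Matrix.mulVec_smul, Matrix.mulVec_mulVec, hinv_mul_hess hu hy, Matrix.one_mulVec]
    ext i j
    show grd _ y i * (hess u y *ᵥ (y - x₀)) j +
      (-(h * psiF u x₀ p h y)⁻¹) * vd (fun z => hess u z *ᵥ (z - x₀)) y i j =
      covC u x₀ p h 2 y i j + covF u x₀ p h 2 y i * covF u x₀ p h 2 y j -
        (h * psiF u x₀ p h y)⁻¹ * hess u y i j
    rw [covC_apply D hy, e3, Matrix.mulVec_smul, e2, hs, show grd _ y i = _ from e i]
    simp [covF]
    ring

lemma covD_transpose (a : Fin 3) : (covD u x₀ p h a y)ᵀ = covD u x₀ p h a y := by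
  have hu := D.am
  fin_cases a <;>
    simp [covD, hess_symm hu.isOpen hu.sm_logDet hy, hess_symm hu.isOpen hu.sm hy,
      covC_transpose D hy, Matrix.transpose_vecMulVec]

lemma vd_ginv_covF (a : Fin 3) :
    vd (fun z => hinv u z *ᵥ covF u x₀ p h a z) y = covU u x₀ p h a y := by
  ext i j
  rw [vd_mulVec D.am.isOpen hy D.am.msm_hinv (vsm_covF D a), mpd_hinv' D.am hy, vd_covF D hy,
    covU, Matrix.neg_mulVec, Pi.neg_apply, ← Matrix.mulVec_mulVec, ← Matrix.mulVec_mulVec,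
    Matrix.sub_mul, Matrix.sub_apply]
  have e : (mh u i y *ᵥ (hinv u y *ᵥ covF u x₀ p h a y)) = fun k => covC u x₀ p h a y i k :=
    funext fun k => (covC_apply D hy a i k).symm
  rw [e]
  have hG : ∀ k, hinv u y j k = hinv u y k j := fun k =>
    (congrFun (congrFun (hinv_transpose D.am hy) j) k).symm
  simp only [Matrix.mulVec, dotProduct, Matrix.mul_apply, hG, mul_comm]
  ring

/-! ### The three kinds of fields -/

lemma gdiv_fldK (z a b : Fin 3) : gdiv u (fldK u x₀ p h z a b) y =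
    (covD u x₀ p h a y *ᵥ (hinv u y *ᵥ covF u x₀ p h b y) +
        covU u x₀ p h b y *ᵥ covF u x₀ p h a y) ⬝ᵥ (hinv u y *ᵥ covF u x₀ p h z y) +
      (covF u x₀ p h a y ⬝ᵥ (hinv u y *ᵥ covF u x₀ p h b y)) *
        (hinv u y * (covD u x₀ p h z y)ᵀ).trace := by
  have hW := D.am.isOpen
  show gdiv u (fun y => (covF u x₀ p h a y ⬝ᵥ (hinv u y *ᵥ covF u x₀ p h b y)) •
    covF u x₀ p h z y) y = _
  rw [gdiv_smul hW hy (sm_dotProduct (vsm_covF D a) (vsm_ginv_covF D b)) (vsm_covF D z),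
    grd_dotProduct hW hy (vsm_covF D a) (vsm_ginv_covF D b), vd_covF D hy, vd_ginv_covF D hy]
  congr 2
  simp [gdiv, vd_covF D hy, Matrix.trace, Matrix.mul_apply]

set_option maxRecDepth 8000 in
lemma gdiv_fldH (z : Fin 3) : gdiv u (fldH u x₀ p h z) y =
    (hinv u y * covC u x₀ p h z y * hinv u y * hess (logDet u) y).trace +
      4 / 5 * (2 * ((hinv u y *ᵥ covF u x₀ p h z y) ⬝ᵥ
          (hess (logDet u) y *ᵥ (hinv u y *ᵥ covF u x₀ p h 0 y))) -
        (hinv u y *ᵥ covF u x₀ p h z y) ⬝ᵥ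
          (covC u x₀ p h 0 y *ᵥ (hinv u y *ᵥ covF u x₀ p h 0 y))) +
      (hinv u y * hess (logDet u) y * (covU u x₀ p h z y)ᵀ).trace := by
  have hu := D.am
  have hW := hu.isOpen
  have hL : MSm W (hess (logDet u)) := msm_hess hW hu.sm_logDet
  have e1 : ∀ i j, vd (fldH u x₀ p h z) y i j =
      (mpd i (hess (logDet u)) y *ᵥ (hinv u y *ᵥ covF u x₀ p h z y)) j +
        (hess (logDet u) y *ᵥ covU u x₀ p h z y i) j := fun i j => by
    show vd (fun y => hess (logDet u) y *ᵥ (hinv u y *ᵥ covF u x₀ p h z y)) y i j = _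
    rw [vd_mulVec hW hy hL (vsm_ginv_covF D z), vd_ginv_covF D hy]
  have e2 : ∀ b, ∑ i, ∑ j, hinv u y i j * mpd i (hess (logDet u)) y j b =
      (hinv u y * mh u b y * hinv u y * hess (logDet u) y).trace +
      4 / 5 * (2 * (hess (logDet u) y *ᵥ (hinv u y *ᵥ covF u x₀ p h 0 y)) b -
        (hinv u y *ᵥ covF u x₀ p h 0 y) ⬝ᵥ
          (mh u b y *ᵥ (hinv u y *ᵥ covF u x₀ p h 0 y))) := fun b => by
    have := trace_mpd_logDet hu hy b
    rw [show grd (logDet u) y = covF u x₀ p h 0 y from rfl] at this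
    rw [← this]
    have hT : ∀ i j, mpd i (hess (logDet u)) y j b = mpd b (hess (logDet u)) y j i := fun i j => by
      obtain ⟨h1, h2⟩ := mpd_hess_symm hW hu.sm_logDet hy i j b
      obtain ⟨h3, h4⟩ := mpd_hess_symm hW hu.sm_logDet hy b j i
      rw [h2, (mpd_hess_symm hW hu.sm_logDet hy i b j).1, h4]
    simp only [hT, Matrix.trace, Matrix.diag, Matrix.mul_apply]
    ring
  have e3 : gdiv u (fldH u x₀ p h z) y = ∑ b, (hinv u y *ᵥ covF u x₀ p h z y) b *
      (∑ i, ∑ j, hinv u y i j * mpd i (hess (logDet u)) y j b) +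
      (hinv u y * hess (logDet u) y * (covU u x₀ p h z y)ᵀ).trace := by
    simp only [gdiv, e1, Matrix.mulVec, dotProduct, Matrix.trace, Matrix.diag, Matrix.mul_apply,
      Matrix.transpose_apply, Fin.sum_univ_three]
    ring
  rw [e3]
  simp only [e2]
  have hC : ∀ i j, covC u x₀ p h 0 y i j = (mh u i y *ᵥ (hinv u y *ᵥ covF u x₀ p h 0 y)) j :=
    covC_apply D hy 0
  have hz : covC u x₀ p h z y = ∑ k, (hinv u y *ᵥ covF u x₀ p h z y) k • mh u k y := rfl
  generalize covU u x₀ p h z y = U at *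
  rw [hz]
  clear e1 e2 e3 hz
  generalize covC u x₀ p h 0 y = C at *
  generalize hinv u y *ᵥ covF u x₀ p h 0 y = A at *
  generalize hinv u y *ᵥ covF u x₀ p h z y = B at *
  simp only [Matrix.mulVec, dotProduct] at hC
  simp only [Matrix.mulVec, dotProduct, hC, Matrix.trace, Matrix.diag, Matrix.mul_apply,
    Matrix.sum_apply, Matrix.add_apply, Matrix.smul_apply, smul_eq_mul, Matrix.transpose_apply,
    Fin.sum_univ_three]
  ring

set_option maxRecDepth 8000 in
lemma gdiv_fldT (a b : Fin 3) : gdiv u (fldT u x₀ p h a b) y =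
    (hinv u y *ᵥ covF u x₀ p h a y) ⬝ᵥ
        (hess (logDet u) y *ᵥ (hinv u y *ᵥ covF u x₀ p h b y)) +
      (hinv u y * covC u x₀ p h a y * hinv u y * covC u x₀ p h b y).trace +
      (hinv u y * covC u x₀ p h a y * (covU u x₀ p h b y)ᵀ).trace +
      (hinv u y * covC u x₀ p h b y * (covU u x₀ p h a y)ᵀ).trace := by
  have hu := D.am
  have hW := hu.isOpen
  have e1 : ∀ i j, vd (fldT u x₀ p h a b) y i j =
      (mpd i (covC u x₀ p h a) y *ᵥ (hinv u y *ᵥ covF u x₀ p h b y)) j +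
        (covC u x₀ p h a y *ᵥ covU u x₀ p h b y i) j := fun i j => by
    show vd (fun y => covC u x₀ p h a y *ᵥ (hinv u y *ᵥ covF u x₀ p h b y)) y i j = _
    rw [vd_mulVec hW hy (msm_covC D a) (vsm_ginv_covF D b), vd_ginv_covF D hy]
  have e2 : ∀ i j c, mpd i (covC u x₀ p h a) y j c = ∑ k, (covU u x₀ p h a y i k * mh u k y j c +
      (hinv u y *ᵥ covF u x₀ p h a y) k * mpd k (mh u c) y j i) := fun i j c => by
    show pd i (fun z => (∑ k, (hinv u z *ᵥ covF u x₀ p h a z) k • mh u k z) j c) y = _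
    simp only [Matrix.sum_apply, Matrix.smul_apply, smul_eq_mul]
    rw [pd_sum fun k _ => ((vsm_ginv_covF D a k).mul (msm_mh' hu k j c)).differentiableAt hW hy]
    refine sum_congr rfl fun k _ => ?_
    rw [pd_mul ((vsm_ginv_covF D a k).differentiableAt hW hy)
      ((msm_mh' hu k j c).differentiableAt hW hy), ← vd_ginv_covF D hy]
    congr 2
    show pd i (fun z => pd k (fun s => hess u s j c) z) y = _
    rw [pd_comm hW (hu.sm.hess hW j c) hy i k]
    exact pd_congr_on hW hy (fun z hz => by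
      show pd i (fun s => hess u s j c) z = pd c (fun s => hess u s j i) z
      obtain ⟨h1, h2⟩ := mpd_hess_symm hW hu.sm hz i j c
      obtain ⟨h3, h4⟩ := mpd_hess_symm hW hu.sm hz c j i
      exact h2.trans ((mpd_hess_symm hW hu.sm hz i c j).1.trans h4.symm)) k
  have hC : covC u x₀ p h b y = ∑ k, (hinv u y *ᵥ covF u x₀ p h b y) k • mh u k y := rfl
  have hCa : covC u x₀ p h a y = ∑ k, (hinv u y *ᵥ covF u x₀ p h a y) k • mh u k y := rfl
  have hT : ∀ j k c, mh u k y j c = mh u c y j k := fun j k c =>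
    ((sym3_mh hu hy).s23 k j c).trans (((sym3_mh hu hy).s12 k c j).trans
      ((sym3_mh hu hy).s23 c k j))
  have e3 : gdiv u (fldT u x₀ p h a b) y =
      (∑ k, ∑ c, (hinv u y *ᵥ covF u x₀ p h a y) k * (hinv u y *ᵥ covF u x₀ p h b y) c *
          (hinv u y * mpd k (mh u c) y).trace) +
        (hinv u y * covC u x₀ p h a y * (covU u x₀ p h b y)ᵀ).trace +
        (hinv u y * covC u x₀ p h b y * (covU u x₀ p h a y)ᵀ).trace := by
    rw [hC]
    generalize hinv u y *ᵥ covF u x₀ p h a y = A at *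
    generalize hinv u y *ᵥ covF u x₀ p h b y = B at *
    generalize covC u x₀ p h a y = C at *
    simp only [gdiv, e1, e2, Matrix.mulVec, dotProduct, Matrix.trace, Matrix.diag,
      Matrix.mul_apply, Matrix.sum_apply, Matrix.add_apply, Matrix.smul_apply, smul_eq_mul,
      Matrix.transpose_apply, Fin.sum_univ_three, hT _ 1 0, hT _ 2 0, hT _ 2 1]
    ring
  have e4 : (hinv u y *ᵥ covF u x₀ p h a y) ⬝ᵥ
        (hess (logDet u) y *ᵥ (hinv u y *ᵥ covF u x₀ p h b y)) +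
      (hinv u y * covC u x₀ p h a y * hinv u y * covC u x₀ p h b y).trace =
      ∑ k, ∑ c, (hinv u y *ᵥ covF u x₀ p h a y) k * (hinv u y *ᵥ covF u x₀ p h b y) c *
          (hinv u y * mpd k (mh u c) y).trace := by
    rw [hC, hCa]
    simp only [Matrix.mul_sum, Matrix.sum_mul, Matrix.mul_smul, Matrix.smul_mul,
      Matrix.trace_sum, Matrix.trace_smul, smul_eq_mul, dotProduct]
    generalize hinv u y *ᵥ covF u x₀ p h a y = A
    generalize hinv u y *ᵥ covF u x₀ p h b y = B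
    simp only [Matrix.mulVec, dotProduct, hess_logDet_apply hu hy, Fin.sum_univ_three]
    ring
  rw [e3, ← e4]

/-! ### Passage to the normalised jet -/

variable {B : Matrix (Fin 3) (Fin 3) ℝ} (hB : B * Bᵀ = hinv u y)
include hB

omit D hy in
lemma dot_transfer (a b : Fin 3 → ℝ) : (Bᵀ *ᵥ a) ⬝ᵥ (Bᵀ *ᵥ b) = a ⬝ᵥ (hinv u y *ᵥ b) := by
  rw [← hB, ← Matrix.mulVec_mulVec, Matrix.dotProduct_mulVec a B, ← Matrix.mulVec_transpose]

omit D hy in
lemma mulVec_transfer (X : Matrix (Fin 3) (Fin 3) ℝ) (a : Fin 3 → ℝ) :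
    (Bᵀ * X * B) *ᵥ (Bᵀ *ᵥ a) = Bᵀ *ᵥ (X *ᵥ (hinv u y *ᵥ a)) := by
  rw [← hB, ← Matrix.mulVec_mulVec (M := B), ← Matrix.mulVec_mulVec, ← Matrix.mulVec_mulVec]

omit D hy in
lemma trace_transfer (X : Matrix (Fin 3) (Fin 3) ℝ) :
    (Bᵀ * X * B).trace = (hinv u y * X).trace := by
  rw [Matrix.trace_mul_comm, ← mul_assoc, hB]

omit D hy in
lemma mul_transfer (X Y : Matrix (Fin 3) (Fin 3) ℝ) :
    Bᵀ * X * B * (Bᵀ * Y * B) = Bᵀ * (X * hinv u y * Y) * B := by
  simp only [← hB, mul_assoc]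

lemma conj_hess : Bᵀ * hess u y * B = 1 := by
  have h1 : B * (Bᵀ * hess u y) = 1 := by rw [← mul_assoc, hB, hinv_mul_hess D.am hy]
  rw [mul_eq_one_comm] at h1
  exact h1

omit hy in
lemma jet_Z (a : Fin 3) : (jetAt u x₀ p h B y).Z a = Bᵀ *ᵥ covF u x₀ p h a y := by
  fin_cases a <;> rfl

lemma jet_C (a : Fin 3) : (jetAt u x₀ p h B y).C a = Bᵀ * covC u x₀ p h a y * B := by
  show ∑ k, (jetAt u x₀ p h B y).Z a k • ∑ l, B l k • (Bᵀ * mh u l y * B) = _
  have e : hinv u y *ᵥ covF u x₀ p h a y = B *ᵥ (Bᵀ *ᵥ covF u x₀ p h a y) := by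
    rw [Matrix.mulVec_mulVec, hB]
  simp only [smul_sum, smul_smul, jet_Z D hB]
  rw [sum_comm]
  simp only [covC, Matrix.mul_sum, Matrix.sum_mul, Matrix.mul_smul, Matrix.smul_mul, ← sum_smul, e]
  refine sum_congr rfl fun l _ => ?_
  congr 1
  exact sum_congr rfl fun k _ => mul_comm _ _

lemma jet_dl (a : Fin 3) : (jetAt u x₀ p h B y).dl a = Bᵀ * covD u x₀ p h a y * B := by
  have hv : ∀ a : Fin 3 → ℝ, Matrix.vecMulVec (Bᵀ *ᵥ a) (Bᵀ *ᵥ a) =
      Bᵀ * Matrix.vecMulVec a a * B := fun a => by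
    rw [Matrix.mul_vecMulVec, Matrix.vecMulVec_mul, ← Matrix.mulVec_transpose]
  fin_cases a
  · rfl
  · show -Matrix.vecMulVec (Bᵀ *ᵥ covF u x₀ p h 1 y) (Bᵀ *ᵥ covF u x₀ p h 1 y) -
      (h * etaF u x₀ p h y)⁻¹ • (1 : Matrix (Fin 3) (Fin 3) ℝ) = Bᵀ * _ * B
    simp only [covD, hv, ← conj_hess D hy hB]
    simp [Matrix.mul_sub, Matrix.sub_mul]
  · show (jetAt u x₀ p h B y).C 2 +
      Matrix.vecMulVec (Bᵀ *ᵥ covF u x₀ p h 2 y) (Bᵀ *ᵥ covF u x₀ p h 2 y) -
      (h * psiF u x₀ p h y)⁻¹ • (1 : Matrix (Fin 3) (Fin 3) ℝ) = Bᵀ * _ * B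
    simp only [covD, jet_C D hy hB, hv, ← conj_hess D hy hB]
    simp [Matrix.mul_sub, Matrix.sub_mul, Matrix.mul_add, Matrix.add_mul]

lemma jet_du (a : Fin 3) :
    (jetAt u x₀ p h B y).du a = Bᵀ * (covD u x₀ p h a y - covC u x₀ p h a y) * B := by
  rw [Jet.du, jet_dl D hy hB, jet_C D hy hB, Matrix.mul_sub, Matrix.sub_mul]

omit hy in
lemma jet_dW : (jetAt u x₀ p h B y).dW = Bᵀ *ᵥ covW u x₀ p h y := by
  simp [Jet.dW, covW, jetAt, Matrix.mulVec_add, Matrix.mulVec_smul]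

lemma covU_transpose (a : Fin 3) :
    (covU u x₀ p h a y)ᵀ = hinv u y * (covD u x₀ p h a y - covC u x₀ p h a y) := by
  rw [covU, Matrix.transpose_mul, hinv_transpose D.am hy, Matrix.transpose_sub,
    covD_transpose D hy, covC_transpose D hy]

omit hy hB in
lemma dot_swap {X : Matrix (Fin 3) (Fin 3) ℝ} (a b : Fin 3 → ℝ) :
    a ⬝ᵥ (Xᵀ *ᵥ b) = (X *ᵥ a) ⬝ᵥ b := by
  rw [Matrix.dotProduct_mulVec, Matrix.vecMul_transpose]

lemma jet_fieldK (z a b : Fin 3) :
    (jetAt u x₀ p h B y).fieldK z a b = gdiv u (fldK u x₀ p h z a b) y +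
      covW u x₀ p h y ⬝ᵥ (hinv u y *ᵥ fldK u x₀ p h z a b y) := by
  rw [gdiv_fldK D hy, Jet.fieldK]
  simp only [jet_Z D hB, jet_dW D hB, jet_dl D hy hB, jet_du D hy hB, mulVec_transfer hB,
    dot_transfer hB, trace_transfer hB, covD_transpose D hy, fldK, Matrix.mulVec_smul,
    dotProduct_smul, smul_eq_mul, add_dotProduct, covU, ← Matrix.mulVec_mulVec]
  have hG := hinv_transpose D.am hy
  have e : ∀ s r : Fin 3 → ℝ, s ⬝ᵥ (hinv u y *ᵥ r) = r ⬝ᵥ (hinv u y *ᵥ s) := fun s r => by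
    conv_lhs => rw [← hG, dot_swap D, dotProduct_comm]
  rw [e (covF u x₀ p h z y) (covD u x₀ p h a y *ᵥ _),
    e (covF u x₀ p h z y) ((covD u x₀ p h b y - _) *ᵥ _)]
  ring

lemma jet_fieldH (z : Fin 3) :
    (jetAt u x₀ p h B y).fieldH z = gdiv u (fldH u x₀ p h z) y +
      covW u x₀ p h y ⬝ᵥ (hinv u y *ᵥ fldH u x₀ p h z y) := by
  have hH : (jetAt u x₀ p h B y).H = Bᵀ * hess (logDet u) y * B := rfl
  have h0 : (jetAt u x₀ p h B y).t = Bᵀ *ᵥ covF u x₀ p h 0 y := rfl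
  rw [gdiv_fldH D hy, Jet.fieldH, hH, h0]
  simp only [jet_Z D hB, jet_dW D hB, jet_C D hy hB, jet_du D hy hB, mul_transfer hB,
    mulVec_transfer hB, dot_transfer hB, trace_transfer hB, fldH, covU_transpose D hy hB,
    Matrix.sub_mulVec, Matrix.smul_mulVec, dotProduct_sub, dotProduct_smul, smul_eq_mul]
  have hG := hinv_transpose D.am hy
  have e : ∀ s r : Fin 3 → ℝ, s ⬝ᵥ (hinv u y *ᵥ r) = (hinv u y *ᵥ s) ⬝ᵥ r := fun s r => by
    conv_lhs => rw [← hG, dot_swap D]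
  rw [e (covF u x₀ p h z y), e (covF u x₀ p h z y)]
  simp only [mul_assoc]

lemma jet_fieldT (a b : Fin 3) :
    (jetAt u x₀ p h B y).fieldT a b = gdiv u (fldT u x₀ p h a b) y +
      covW u x₀ p h y ⬝ᵥ (hinv u y *ᵥ fldT u x₀ p h a b y) := by
  have hH : (jetAt u x₀ p h B y).H = Bᵀ * hess (logDet u) y * B := rfl
  rw [gdiv_fldT D hy, Jet.fieldT, hH]
  simp only [jet_Z D hB, jet_dW D hB, jet_C D hy hB, jet_du D hy hB, mul_transfer hB,
    mulVec_transfer hB, dot_transfer hB, trace_transfer hB, fldT, covU_transpose D hy hB]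
  have hG := hinv_transpose D.am hy
  have e : ∀ s r : Fin 3 → ℝ, s ⬝ᵥ (hinv u y *ᵥ r) = (hinv u y *ᵥ s) ⬝ᵥ r := fun s r => by
    conv_lhs => rw [← hG, dot_swap D]
  rw [e (covF u x₀ p h a y)]
  simp only [mul_assoc, covC]

lemma jet_valid : (jetAt u x₀ p h B y).Valid where
  symT := by
    have hs := sym3_mh D.am hy
    have s12 : ∀ a b c, mh u a y b c = mh u b y a c := hs.s12
    have s23 : ∀ a b c, mh u a y b c = mh u a y c b := hs.s23
    constructor <;> intro a b c <;>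
      simp only [jetAt, Matrix.sum_apply, Matrix.add_apply, Matrix.smul_apply, Matrix.mul_apply,
        Matrix.transpose_apply, smul_eq_mul, Fin.sum_univ_three, s12 1 0, s12 2 0,
        s12 2 1, s23 0 1 0, s23 0 2 0, s23 0 2 1, s23 1 1 0, s23 1 2 0,
        s23 1 2 1, s23 2 1 0, s23 2 2 0, s23 2 2 1] <;>
      ring
  symH := by
    simp [jetAt, Matrix.transpose_mul, hess_symm D.am.isOpen D.am.sm_logDet hy, mul_assoc]
  trT := fun k => by
    show (∑ l, B l k • (Bᵀ * mh u l y * B)).trace = (Bᵀ *ᵥ covF u x₀ p h 0 y) k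
    simp only [Matrix.trace_sum, Matrix.trace_smul, trace_transfer hB, ← pd_logDet D.am hy,
      smul_eq_mul]
    rfl
  trH := by
    show (Bᵀ * hess (logDet u) y * B).trace =
      4 / 5 * ((Bᵀ *ᵥ covF u x₀ p h 0 y) ⬝ᵥ (Bᵀ *ᵥ covF u x₀ p h 0 y))
    rw [trace_transfer hB, trace_logDet D.am hy, dot_transfer hB]
    rfl
  vw := by
    show (Bᵀ *ᵥ covF u x₀ p h 1 y) ⬝ᵥ (Bᵀ *ᵥ covF u x₀ p h 2 y) =
      (h * etaF u x₀ p h y)⁻¹ - (h * psiF u x₀ p h y)⁻¹
    rw [dot_transfer hB]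
    show ((-(h * etaF u x₀ p h y)⁻¹) • capGrad u x₀ p y) ⬝ᵥ
      (hinv u y *ᵥ ((-(h * psiF u x₀ p h y)⁻¹) • (hess u y *ᵥ (y - x₀)))) = _
    have hh := D.hpos.ne'
    have h1 := (D.eta y hy).ne'
    have h2 := (D.psi y hy).ne'
    rw [Matrix.mulVec_smul, Matrix.mulVec_mulVec, hinv_mul_hess D.am hy, Matrix.one_mulVec,
      smul_dotProduct, dotProduct_smul, smul_eq_mul, smul_eq_mul]
    have e : (y - x₀) ⬝ᵥ capGrad u x₀ p y =
        h * psiF u x₀ p h y - h * etaF u x₀ p h y := by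
      rw [psiF, etaF]
      field_simp
      ring
    rw [dotProduct_comm, e]
    field_simp

omit hB

/-- The logarithmic gradient of the weight. -/
lemma grd_weightF : grd (weightF u x₀ p h) y = weightF u x₀ p h y • covW u x₀ p h y := by
  have hu := D.am
  have hW := hu.isOpen
  have hd := hu.det_pos hy
  have a1 : DifferentiableAt ℝ (fun z => etaF u x₀ p h z ^ 30) y :=
    ((sm_etaF hu).pow 30).differentiableAt hW hy
  have hψ : DifferentiableAt ℝ (psiF u x₀ p h) y := (sm_psiF hu).differentiableAt hW hy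
  have a2 : DifferentiableAt ℝ (fun z => (psiF u x₀ p h z ^ 2)⁻¹) y :=
    (hψ.pow 2).inv (pow_ne_zero _ (D.psi y hy).ne')
  have hdet : DifferentiableAt ℝ (fun z => (hess u z).det) y :=
    (sm_det (msm_hess hW hu.sm)).differentiableAt hW hy
  have a3 : DifferentiableAt ℝ (fun z => (hess u z).det ^ (-(3 / 8 : ℝ))) y :=
    hdet.rpow_const (Or.inl hd.ne')
  funext i
  have b1 := congrFun (grd_etaF D hy) i
  have b2 := congrFun (grd_psiF D hy) i
  have b3 : pd i (fun z => (hess u z).det ^ (-(3 / 8 : ℝ))) y =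
      -(3 / 8 : ℝ) * (hess u y).det ^ (-(3 / 8 : ℝ) - 1) *
        pd i (fun z => (hess u z).det) y := by
    simp [pd, (hdet.hasFDerivAt.rpow_const (p := -(3 / 8 : ℝ)) (Or.inl hd.ne')).fderiv]
  have b4 : pd i (fun z => (psiF u x₀ p h z ^ 2)⁻¹) y =
      -((psiF u x₀ p h y ^ 2) ^ 2)⁻¹ * pd i (fun z => psiF u x₀ p h z ^ 2) y := by
    have hsq : DifferentiableAt ℝ (fun z => psiF u x₀ p h z ^ 2) y := hψ.pow 2
    show fderiv ℝ ((fun r : ℝ => r⁻¹) ∘ fun z => psiF u x₀ p h z ^ 2) y (Pi.single i 1) = _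
    rw [((hasDerivAt_inv (pow_ne_zero 2 (D.psi y hy).ne')).comp_hasFDerivAt
      (f := fun z => psiF u x₀ p h z ^ 2) y hsq.hasFDerivAt).fderiv]
    simp [pd]
  show pd i (fun z => etaF u x₀ p h z ^ 30 * (psiF u x₀ p h z ^ 2)⁻¹ *
    (hess u z).det ^ (-(3 / 8 : ℝ))) y = _
  rw [pd_mul (a1.fun_mul a2) a3, pd_mul a1 a2,
    pd_pow ((sm_etaF hu).differentiableAt hW hy), b4, pd_pow hψ, b3]
  have b5 : pd i (fun z => (hess u z).det) y = (hess u y).det * covF u x₀ p h 0 y i := by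
    rw [pd_det hW (msm_hess hW hu.sm) hd.ne' hy]
    exact congrArg _ (pd_logDet hu hy i).symm
  simp only [grd, Pi.smul_apply, smul_eq_mul] at b1 b2
  rw [b1, b2, b5, Real.rpow_sub_one hd.ne']
  have e1 : covF u x₀ p h 1 y i = -(h * etaF u x₀ p h y)⁻¹ * capGrad u x₀ p y i := rfl
  have e2 : covF u x₀ p h 2 y i = -(h * psiF u x₀ p h y)⁻¹ * (hess u y *ᵥ (y - x₀)) i := rfl
  simp only [weightF, covW, Pi.smul_apply, Pi.add_apply, smul_eq_mul, e1, e2]
  have h1 := (D.eta y hy).ne'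
  have h2 := (D.psi y hy).ne'
  have hh := D.hpos.ne'
  field_simp
  push_cast
  ring

omit hy

lemma vsm_fldK (z a b : Fin 3) : VSm W (fldK u x₀ p h z a b) :=
  VSm.smul (sm_dotProduct (vsm_covF D a) (vsm_ginv_covF D b)) (vsm_covF D z)

lemma vsm_fldH (z : Fin 3) : VSm W (fldH u x₀ p h z) :=
  VSm.mulVec (msm_hess D.am.isOpen D.am.sm_logDet) (vsm_ginv_covF D z)

lemma vsm_fldT (a b : Fin 3) : VSm W (fldT u x₀ p h a b) :=
  VSm.mulVec (msm_covC D a) (vsm_ginv_covF D b)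

include hy

/-- The divergence of `det D²u · G Ω Y`. -/
lemma div_fluxF (hY : VSm W (fldY u x₀ p h)) :
    ∑ i, pd i (fluxF u x₀ p h i) y = weightF u x₀ p h y * (hess u y).det *
      (gdiv u (fldY u x₀ p h) y +
        covW u x₀ p h y ⬝ᵥ (hinv u y *ᵥ fldY u x₀ p h y)) := by
  have hu := D.am
  have hW := hu.isOpen
  have hΩ : Sm W (weightF u x₀ p h) :=
    (((sm_etaF hu).pow 30).mul (ContDiffOn.inv ((sm_psiF hu).pow 2) fun z hz =>
      pow_ne_zero _ (D.psi z hz).ne')).mul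
      ((sm_det (msm_hess hW hu.sm)).rpow_const_of_ne fun z hz => (hu.det_pos hz).ne')
  have hc := msm_cofH hW hu.sm (det_ne_zero hu)
  have e : ∀ i, ∀ z, fluxF u x₀ p h i z =
      ∑ j, cofH u z i j * (weightF u x₀ p h z * fldY u x₀ p h z j) := fun i z => by
    simp only [fluxF, Matrix.mulVec, dotProduct, cofH_apply, mul_sum, hinv]
    exact sum_congr rfl fun j _ => by ring
  have hF : ∀ j, Sm W fun z => weightF u x₀ p h z * fldY u x₀ p h z j := fun j => hΩ.mul (hY j)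
  calc ∑ i, pd i (fluxF u x₀ p h i) y
      = ∑ i, ∑ j, (pd i (fun z => cofH u z i j) y * (weightF u x₀ p h y * fldY u x₀ p h y j) +
          cofH u y i j * vd (fun z => weightF u x₀ p h z • fldY u x₀ p h z) y i j) := by
        refine sum_congr rfl fun i _ => ?_
        rw [show fluxF u x₀ p h i = fun z => ∑ j, cofH u z i j *
            (weightF u x₀ p h z * fldY u x₀ p h z j) from funext (e i),
          pd_sum fun j _ => ((hc i j).mul (hF j)).differentiableAt hW hy]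
        exact sum_congr rfl fun j _ =>
          pd_mul ((hc i j).differentiableAt hW hy) ((hF j).differentiableAt hW hy) i
    _ = (∑ i, ∑ j, pd i (fun z => cofH u z i j) y * (weightF u x₀ p h y * fldY u x₀ p h y j)) +
          (hess u y).det * gdiv u (fun z => weightF u x₀ p h z • fldY u x₀ p h z) y := by
        simp only [sum_add_distrib, gdiv, mul_sum, cofH_apply, hinv, mul_assoc]
    _ = _ := by
        rw [sum_comm]
        simp only [← sum_mul, piola hW hu.sm (det_ne_zero hu) hy, zero_mul, sum_const_zero,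
          zero_add]
        rw [gdiv_smul hW hy hΩ hY, grd_weightF D hy, smul_dotProduct, smul_eq_mul]
        ring

lemma flux_eq (hB : B * Bᵀ = hinv u y) :
    ∑ i, pd i (fluxF u x₀ p h i) y =
      weightF u x₀ p h y * (hess u y).det * (jetAt u x₀ p h B y).flux := by
  have hW := D.am.isOpen
  have hY : VSm W (fldY u x₀ p h) := by
    unfold fldY
    repeat' apply VSm.add
    all_goals apply VSm.smul (sm_const _)
    all_goals first | exact vsm_fldK D _ _ _ | exact vsm_fldH D _ | exact vsm_fldT D _ _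
  rw [div_fluxF D hy hY]
  congr 1
  set ev : ((Fin 3 → ℝ) → Fin 3 → ℝ) → ℝ := fun F =>
    gdiv u F y + covW u x₀ p h y ⬝ᵥ (hinv u y *ᵥ F y) with hev
  have hadd : ∀ F H, VSm W F → VSm W H → ev (fun z => F z + H z) = ev F + ev H :=
    fun F H hF hH => by
      simp only [hev, gdiv_add hW hy hF hH, Matrix.mulVec_add, dotProduct_add]
      ring
  have hsm : ∀ (c : ℝ) F, VSm W F → ev (fun z => c • F z) = c * ev F := fun c F hF => by
    simp only [hev, gdiv_const_smul hW hy c hF, Matrix.mulVec_smul, dotProduct_smul, smul_eq_mul]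
    ring
  show ev (fldY u x₀ p h) = _
  have hK : ∀ z a b, (jetAt u x₀ p h B y).fieldK z a b = ev (fldK u x₀ p h z a b) :=
    jet_fieldK D hy hB
  have hH : ∀ z, (jetAt u x₀ p h B y).fieldH z = ev (fldH u x₀ p h z) := jet_fieldH D hy hB
  have hT : ∀ a b, (jetAt u x₀ p h B y).fieldT a b = ev (fldT u x₀ p h a b) :=
    jet_fieldT D hy hB
  simp only [Jet.flux, hK, hH, hT]
  unfold fldY
  repeat rw [hadd]
  · repeat rw [hsm]
    all_goals first | exact vsm_fldK D _ _ _ | exact vsm_fldH D _ | exact vsm_fldT D _ _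
  all_goals repeat' apply VSm.add
  all_goals apply VSm.smul (sm_const _)
  all_goals first | exact vsm_fldK D _ _ _ | exact vsm_fldH D _ | exact vsm_fldT D _ _

end

end Vale.Agent.P252.Three

namespace Vale.Agent.P252.Three

open scoped ContDiff Topology Matrix
open Finset Rigidity

noncomputable section

/-- The divergence inequality for the flux, from the algebraic certificate. -/
theorem fluxBound_of_cert (hC : CertIneq) : FluxBound := by
  obtain ⟨ε, C, hε, hC0, hJ⟩ := hC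
  refine ⟨ε, C, hε, hC0, ?_⟩
  intro W u hu x₀ p h hh y hy hη hψ
  set W' : Set (Fin 3 → ℝ) :=
    W ∩ etaF u x₀ p h ⁻¹' Set.Ioi 0 ∩ psiF u x₀ p h ⁻¹' Set.Ioi 0 with hW'
  have h1 : IsOpen (W ∩ etaF u x₀ p h ⁻¹' Set.Ioi 0) :=
    (sm_etaF hu).continuousOn.isOpen_inter_preimage hu.isOpen isOpen_Ioi
  have h2 : IsOpen W' :=
    ((sm_psiF hu).continuousOn.mono Set.inter_subset_left).isOpen_inter_preimage h1 isOpen_Ioi
  have hsub : W' ⊆ W := fun z hz => hz.1.1
  have D : Dom W' u x₀ p h :=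
    { am := ⟨h2, hu.sm.mono hsub, fun z hz => hu.pos z (hsub hz), fun z hz => hu.eq z (hsub hz)⟩
      hpos := hh
      eta := fun z hz => hz.1.2
      psi := fun z hz => hz.2 }
  have hy' : y ∈ W' := ⟨⟨hy, hη⟩, hψ⟩
  obtain ⟨B, hB⟩ := exists_factor (A := hinv u y) (hu.pos y hy).inv
  rw [flux_eq D hy' hB]
  have hpos : 0 ≤ weightF u x₀ p h y * (hess u y).det := by
    have := hu.det_pos hy
    unfold weightF
    positivity
  refine mul_le_mul_of_nonneg_left ?_ hpos
  have key := hJ _ (jet_valid D hy' hB)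
  have e : (jetAt u x₀ p h B y).t ⬝ᵥ (jetAt u x₀ p h B y).t = qQ u y := by
    show (Bᵀ *ᵥ covF u x₀ p h 0 y) ⬝ᵥ (Bᵀ *ᵥ covF u x₀ p h 0 y) = _
    rw [dot_transfer hB]
    simp only [qQ, dotProduct, Matrix.mulVec, mul_sum, covF, Matrix.cons_val_zero]
    exact sum_congr rfl fun k _ => sum_congr rfl fun l _ => by ring
  rw [e] at key
  exact key

end

end Vale.Agent.P252.Three
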