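import Vale.Agent.P252.Rigidity.Three.Cert
import Vale.Agent.P252.Rigidity.Three.Pointwise

/-!
# The affine Bernstein theorem in three variables
-/

namespace Vale.Agent.P252.Three

open scoped ContDiff Topology Matrix
open Finset Rigidity

noncomputable section

/-- The Hessian of a quadratic polynomial. -/
lemma hess_quadratic {u : (Fin 3 → ℝ) → ℝ} (A : Matrix (Fin 3) (Fin 3) ℝ) (b : Fin 3 → ℝ) (c : ℝ)
    (hu : ∀ x, u x = (∑ i, ∑ j, A i j * x i * x j) + (∑ i, b i * x i) + c) (y : Fin 3 → ℝ) :
    hess u y = A + Aᵀ := by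
  have hd : ∀ (k : Fin 3) (z : Fin 3 → ℝ), DifferentiableAt ℝ (fun w : Fin 3 → ℝ => w k) z :=
    fun k z => differentiableAt_apply k z
  have hc : ∀ (i k : Fin 3) (z : Fin 3 → ℝ),
      pd i (fun w : Fin 3 → ℝ => w k) z = if k = i then 1 else 0 := fun i k z => by
    rw [pd, (hasFDerivAt_apply (𝕜 := ℝ) k z).fderiv]
    simp [Pi.single_apply]
  have h2 : ∀ i j z, DifferentiableAt ℝ (fun w : Fin 3 → ℝ => A i j * w i * w j) z :=
    fun i j z => ((hd i z).const_mul _).fun_mul (hd j z)
  have h1 : ∀ k z, pd k u z = (∑ i, (A + Aᵀ) k i * z i) + b k := fun k z => by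
    rw [show u = fun x => (∑ i, ∑ j, A i j * x i * x j) + (∑ i, b i * x i) + c from funext hu,
      pd_add ((DifferentiableAt.fun_sum fun i _ => DifferentiableAt.fun_sum fun j _ => h2 i j z).fun_add
        (DifferentiableAt.fun_sum fun i _ => (hd i z).const_mul _)) (differentiableAt_const _),
      pd_const, pd_add (DifferentiableAt.fun_sum fun i _ => DifferentiableAt.fun_sum fun j _ =>
        h2 i j z) (DifferentiableAt.fun_sum fun i _ => (hd i z).const_mul _),
      pd_sum (fun i _ => DifferentiableAt.fun_sum fun j _ => h2 i j z),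
      pd_sum (fun i _ => (hd i z).const_mul _)]
    have e : ∀ i, pd k (fun y => ∑ j, A i j * y i * y j) z =
        ∑ j, A i j * ((if i = k then 1 else 0) * z j + z i * (if j = k then 1 else 0)) := fun i => by
      rw [pd_sum fun j _ => h2 i j z]
      refine sum_congr rfl fun j _ => ?_
      rw [pd_mul ((hd i z).const_mul _) (hd j z), pd_mul (differentiableAt_const _) (hd i z),
        pd_const, hc, hc]
      ring
    have e' : ∀ i, pd k (fun y => b i * y i) z = if i = k then b i else 0 := fun i => by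
      rw [pd_mul (differentiableAt_const _) (hd i z), pd_const, hc]
      split <;> simp
    simp only [e, e']
    fin_cases k <;> simp [Fin.sum_univ_three] <;> ring
  ext i j
  show pd i (fun w => pd j u w) y = _
  rw [show (fun w => pd j u w) = fun w => (∑ k, (A + Aᵀ) j k * w k) + b j from funext (h1 j),
    pd_add (DifferentiableAt.fun_sum fun k _ => (hd k y).const_mul _) (differentiableAt_const _),
    pd_const, pd_sum (fun k _ => (hd k y).const_mul _)]
  have e : ∀ k, pd i (fun w => (A + Aᵀ) j k * w k) y = if k = i then (A + Aᵀ) j k else 0 :=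
    fun k => by
      rw [pd_mul (differentiableAt_const _) (hd k y), pd_const, hc]
      split <;> simp
  simp only [e, sum_ite_eq', mem_univ, if_true, add_zero]
  simp [add_comm]

/-- A Euclidean complete affine maximal graph of three variables is an elliptic paraboloid. -/
theorem bernstein_three {W : Set (Fin 3 → ℝ)} {u : (Fin 3 → ℝ) → ℝ} (hu : AM W u)
    (hne : W.Nonempty) (hc : Convex ℝ W) (hcomp : GraphComplete W u) :
    W = Set.univ ∧ ∃ (A : Matrix (Fin 3) (Fin 3) ℝ) (b : Fin 3 → ℝ) (c : ℝ), A.PosDef ∧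
      ∀ x, u x = (1 / 2) * (x ⬝ᵥ (A *ᵥ x)) + b ⬝ᵥ x + c := by
  obtain ⟨hW, A, b, c, hq⟩ :=
    rigidity_three_complete_of_fluxBound (fluxBound_of_cert certIneq) hu hne hc hcomp
  refine ⟨hW, A + Aᵀ, b, c, ?_, fun x => ?_⟩
  · rw [← hess_quadratic A b c hq 0]
    exact hu.pos 0 (hW ▸ Set.mem_univ _)
  · rw [hq x]
    simp [Matrix.mulVec, dotProduct, Fin.sum_univ_three]
    ring

/-- Every graph over the whole space is complete. -/
theorem graphComplete_univ {n : ℕ} (u : (Fin n → ℝ) → ℝ) : GraphComplete Set.univ u :=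
  fun γ _ hγ _ => ⟨γ 1, Set.mem_univ _,
    hγ.continuous.continuousAt.tendsto.mono_left nhdsWithin_le_nhds⟩

end

end Vale.Agent.P252.Three
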