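import Vale.Agent.P252.Rigidity.Three.Integral
import Vale.Agent.P252.Rigidity.Piola

/-!
# Affine maximal functions of three variables: first derivatives of the certificate's covectors

Everything is computed at a general point, in matrix form; `G = (D²u)⁻¹`.
-/

namespace Vale.Agent.P252.Three

open scoped ContDiff Topology Matrix MatrixOrder
open Finset Rigidity

noncomputable section

variable {W : Set (Fin 3 → ℝ)} {u : (Fin 3 → ℝ) → ℝ} {x₀ p : Fin 3 → ℝ} {h : ℝ} {y : Fin 3 → ℝ}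

/-- The derivative `∂ᵢ F_j` of a covector field, in entry `(i, j)`. -/
def vd (F : (Fin 3 → ℝ) → Fin 3 → ℝ) (y : Fin 3 → ℝ) : Matrix (Fin 3) (Fin 3) ℝ :=
  Matrix.of fun i j => pd i (fun z => F z j) y

/-- `tr (G ∇F)`. -/
def gdiv (u : (Fin 3 → ℝ) → ℝ) (F : (Fin 3 → ℝ) → Fin 3 → ℝ) (y : Fin 3 → ℝ) : ℝ :=
  ∑ i, ∑ j, hinv u y i j * vd F y i j

/-- The gradient. -/
def grd (f : (Fin 3 → ℝ) → ℝ) (y : Fin 3 → ℝ) : Fin 3 → ℝ := fun i => pd i f y

lemma vd_mulVec (hW : IsOpen W) (hy : y ∈ W) {M : (Fin 3 → ℝ) → Matrix (Fin 3) (Fin 3) ℝ}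
    {F : (Fin 3 → ℝ) → Fin 3 → ℝ} (hM : MSm W M) (hF : VSm W F) (i j : Fin 3) :
    vd (fun z => M z *ᵥ F z) y i j = (mpd i M y *ᵥ F y) j + (M y *ᵥ vd F y i) j := by
  show pd i (fun z => ∑ k, M z j k * F z k) y = _
  rw [pd_sum fun k _ => ((hM j k).mul (hF k)).differentiableAt hW hy]
  show _ = (∑ k, mpd i M y j k * F y k) + ∑ k, M y j k * vd F y i k
  rw [← sum_add_distrib]
  exact sum_congr rfl fun k _ =>
    pd_mul ((hM j k).differentiableAt hW hy) ((hF k).differentiableAt hW hy) i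

lemma grd_dotProduct (hW : IsOpen W) (hy : y ∈ W) {F H : (Fin 3 → ℝ) → Fin 3 → ℝ}
    (hF : VSm W F) (hH : VSm W H) :
    grd (fun z => F z ⬝ᵥ H z) y = vd F y *ᵥ H y + vd H y *ᵥ F y := by
  funext i
  show pd i (fun z => ∑ k, F z k * H z k) y = _
  rw [pd_sum fun k _ => ((hF k).mul (hH k)).differentiableAt hW hy]
  show _ = (∑ k, vd F y i k * H y k) + ∑ k, vd H y i k * F y k
  rw [← sum_add_distrib]
  refine sum_congr rfl fun k _ => ?_
  rw [pd_mul ((hF k).differentiableAt hW hy) ((hH k).differentiableAt hW hy) i]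
  simp [vd]
  ring

lemma vd_smul (hW : IsOpen W) (hy : y ∈ W) {f : (Fin 3 → ℝ) → ℝ} {F : (Fin 3 → ℝ) → Fin 3 → ℝ}
    (hf : Sm W f) (hF : VSm W F) :
    vd (fun z => f z • F z) y = Matrix.vecMulVec (grd f y) (F y) + f y • vd F y := by
  ext i j
  show pd i (fun z => f z * F z j) y = _
  rw [pd_mul (hf.differentiableAt hW hy) ((hF j).differentiableAt hW hy) i]
  rfl

lemma vd_add (hW : IsOpen W) (hy : y ∈ W) {F H : (Fin 3 → ℝ) → Fin 3 → ℝ}
    (hF : VSm W F) (hH : VSm W H) : vd (fun z => F z + H z) y = vd F y + vd H y := by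
  ext i j
  exact pd_add ((hF j).differentiableAt hW hy) ((hH j).differentiableAt hW hy) i

lemma gdiv_add (hW : IsOpen W) (hy : y ∈ W) {F H : (Fin 3 → ℝ) → Fin 3 → ℝ}
    (hF : VSm W F) (hH : VSm W H) :
    gdiv u (fun z => F z + H z) y = gdiv u F y + gdiv u H y := by
  simp only [gdiv, vd_add hW hy hF hH, Matrix.add_apply, mul_add, sum_add_distrib]

lemma gdiv_smul (hW : IsOpen W) (hy : y ∈ W) {f : (Fin 3 → ℝ) → ℝ}
    {F : (Fin 3 → ℝ) → Fin 3 → ℝ} (hf : Sm W f) (hF : VSm W F) :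
    gdiv u (fun z => f z • F z) y = grd f y ⬝ᵥ (hinv u y *ᵥ F y) + f y * gdiv u F y := by
  simp only [gdiv, vd_smul hW hy hf hF, Matrix.add_apply, Matrix.smul_apply,
    Matrix.vecMulVec_apply, smul_eq_mul, dotProduct, Matrix.mulVec, mul_sum, ← sum_add_distrib]
  exact sum_congr rfl fun i _ => sum_congr rfl fun j _ => by ring

lemma gdiv_const_smul (hW : IsOpen W) (hy : y ∈ W) (c : ℝ) {F : (Fin 3 → ℝ) → Fin 3 → ℝ}
    (hF : VSm W F) : gdiv u (fun z => c • F z) y = c * gdiv u F y := by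
  have e : grd (fun _ : Fin 3 → ℝ => c) y = 0 := funext fun i => pd_const c i
  rw [gdiv_smul hW hy (sm_const c) hF, e, zero_dotProduct, zero_add]

lemma pd_exp {f : (Fin 3 → ℝ) → ℝ} (hf : DifferentiableAt ℝ f y) (i : Fin 3) :
    pd i (fun z => Real.exp (f z)) y = Real.exp (f y) * pd i f y := by
  simp [pd, hf.hasFDerivAt.exp.fderiv]

/-- A congruence `B` with `B Bᵀ` a given positive definite matrix. -/
lemma exists_factor {A : Matrix (Fin 3) (Fin 3) ℝ} (hA : A.PosDef) :
    ∃ B : Matrix (Fin 3) (Fin 3) ℝ, B * Bᵀ = A := by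
  obtain ⟨C, hC⟩ : ∃ C : Matrix (Fin 3) (Fin 3) ℝ, A = Cᴴ * C := by
    obtain ⟨C, hC⟩ := CStarAlgebra.nonneg_iff_eq_star_mul_self.mp hA.posSemidef.nonneg
    exact ⟨C, hC⟩
  exact ⟨Cᵀ, by simpa [Matrix.conjTranspose_eq_transpose_of_trivial] using hC.symm⟩

variable (hu : AM W u)
include hu

lemma det_ne_zero : ∀ z ∈ W, (hess u z).det ≠ 0 := fun _ hz => (hu.det_pos hz).ne'

lemma hinv_mul_hess (hy : y ∈ W) : hinv u y * hess u y = 1 :=
  Matrix.nonsing_inv_mul _ (det_ne_zero hu y hy).isUnit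

lemma hinv_transpose (hy : y ∈ W) : (hinv u y)ᵀ = hinv u y := by
  rw [hinv, Matrix.transpose_nonsing_inv, hess_symm hu.isOpen hu.sm hy]

lemma msm_mh' (k : Fin 3) : MSm W (mh u k) := (msm_hess hu.isOpen hu.sm).mpd hu.isOpen k

lemma mpd_hinv' (hy : y ∈ W) (m : Fin 3) :
    mpd m (hinv u) y = -(hinv u y * mh u m y * hinv u y) :=
  mpd_inv hu.isOpen (msm_hess hu.isOpen hu.sm) (det_ne_zero hu) hy m

lemma sym3_mh (hy : y ∈ W) : Sym3 fun k => mh u k y where
  s12 a b c := (mpd_hess_symm hu.isOpen hu.sm hy a b c).1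
  s23 a b c := (mpd_hess_symm hu.isOpen hu.sm hy a b c).2

lemma pd_logDet (hy : y ∈ W) (k : Fin 3) :
    pd k (logDet u) y = (hinv u y * mh u k y).trace := by
  have hd := (sm_det (msm_hess hu.isOpen hu.sm)).differentiableAt hu.isOpen hy
  have e : pd k (logDet u) y = (hess u y).det⁻¹ * pd k (fun z => (hess u z).det) y := by
    show fderiv ℝ (fun z => Real.log (hess u z).det) y _ = _
    rw [(hd.hasFDerivAt.log (det_ne_zero hu y hy)).fderiv]
    rfl
  rw [e, pd_det hu.isOpen (msm_hess hu.isOpen hu.sm) (det_ne_zero hu y hy) hy k, ← mul_assoc,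
    inv_mul_cancel₀ (det_ne_zero hu y hy), one_mul]
  rfl

/-- The equation: `tr (G D² log det) = 4/5 |D log det|²`. -/
lemma trace_logDet (hy : y ∈ W) :
    (hinv u y * hess (logDet u) y).trace =
      4 / 5 * (grd (logDet u) y ⬝ᵥ (hinv u y *ᵥ grd (logDet u) y)) := by
  set θ : ℝ := 4 / 5 with hθ
  have hL := hu.sm_logDet
  have hw : ∀ z ∈ W, affineW u z = Real.exp (-θ * logDet u z) := fun z hz => by
    rw [affineW, Real.rpow_def_of_pos (hu.det_pos hz), logDet, hθ]
    push_cast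
    ring_nf
  have hl : Sm W fun z => -θ * logDet u z := (sm_const (-θ)).mul hL
  have h1 : ∀ z ∈ W, ∀ j, pd j (affineW u) z =
      Real.exp (-θ * logDet u z) * (-θ * pd j (logDet u) z) := fun z hz j => by
    rw [pd_congr_on hu.isOpen hz hw, pd_exp (hl.differentiableAt hu.isOpen hz),
      pd_mul (differentiableAt_const _) (hL.differentiableAt hu.isOpen hz), pd_const, zero_mul,
      zero_add]
  have he : Sm W fun z => Real.exp (-θ * logDet u z) := ContDiffOn.exp hl
  have h2 : ∀ i j, hess (affineW u) y i j = Real.exp (-θ * logDet u y) *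
      (θ ^ 2 * (pd i (logDet u) y * pd j (logDet u) y) - θ * hess (logDet u) y i j) := by
    intro i j
    show pd i (fun z => pd j (affineW u) z) y = _
    rw [pd_congr_on hu.isOpen hy (fun z hz => h1 z hz j),
      pd_mul (he.differentiableAt hu.isOpen hy)
        (((sm_const (-θ)).mul (hL.pd hu.isOpen j)).differentiableAt hu.isOpen hy),
      pd_exp (hl.differentiableAt hu.isOpen hy),
      pd_mul (differentiableAt_const _) (hL.differentiableAt hu.isOpen hy),
      pd_mul (differentiableAt_const _) ((hL.pd hu.isOpen j).differentiableAt hu.isOpen hy),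
      pd_const]
    show _ = Real.exp (-θ * logDet u y) *
      (θ ^ 2 * _ - θ * pd i (fun z => pd j (logDet u) z) y)
    ring
  have e := hu.eq y hy
  simp only [h2] at e
  rw [← hinv_transpose hu hy]
  simp only [Matrix.trace, Matrix.diag, Matrix.mul_apply, Matrix.transpose_apply, dotProduct,
    Matrix.mulVec, grd, hinv, Fin.sum_univ_three] at e ⊢
  have hne : (hess u y).det * Real.exp (-θ * logDet u y) * θ ≠ 0 :=
    mul_ne_zero (mul_ne_zero (det_ne_zero hu y hy) (Real.exp_pos _).ne') (by norm_num [hθ])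
  apply mul_left_cancel₀ hne
  linear_combination -e

/-- The derivative of the equation. -/
lemma trace_mpd_logDet (hy : y ∈ W) (b : Fin 3) :
    (hinv u y * mpd b (hess (logDet u)) y).trace -
        (hinv u y * mh u b y * hinv u y * hess (logDet u) y).trace =
      4 / 5 * (2 * (hess (logDet u) y *ᵥ (hinv u y *ᵥ grd (logDet u) y)) b -
        (hinv u y *ᵥ grd (logDet u) y) ⬝ᵥ (mh u b y *ᵥ (hinv u y *ᵥ grd (logDet u) y))) := by
  have hW := hu.isOpen
  have hL := hu.sm_logDet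
  have hg : VSm W (grd (logDet u)) := fun i => hL.pd hW i
  have hGg := VSm.mulVec hu.msm_hinv hg
  have key := pd_congr_on hW hy (fun z hz => trace_logDet hu hz) b
  rw [pd_trace hW (hu.msm_hinv.mul (msm_hess hW hL)) hy,
    mpd_mul hW hu.msm_hinv (msm_hess hW hL) hy, mpd_hinv' hu hy,
    pd_mul (differentiableAt_const _) ((sm_dotProduct hg hGg).differentiableAt hW hy), pd_const,
    zero_mul, zero_add, Matrix.trace_add, Matrix.neg_mul, Matrix.trace_neg] at key
  have e := congrFun (grd_dotProduct hW hy hg hGg) b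
  have e2 : ∀ j, vd (fun z => hinv u z *ᵥ grd (logDet u) z) y b j =
      -((hinv u y * mh u b y * hinv u y) *ᵥ grd (logDet u) y) j +
        (hinv u y *ᵥ vd (grd (logDet u)) y b) j := fun j => by
    rw [vd_mulVec hW hy hu.msm_hinv hg, mpd_hinv' hu hy, Matrix.neg_mulVec]
    rfl
  have hvd : vd (grd (logDet u)) y = hess (logDet u) y := rfl
  simp only [grd, Pi.add_apply, Matrix.mulVec, dotProduct, e2, hvd] at e key ⊢
  rw [e] at key
  clear e e2
  have hG : ∀ i j, hinv u y i j = hinv u y j i := fun i j => by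
    conv_lhs => rw [← hinv_transpose hu hy]
    rfl
  have hH : ∀ i j, hess (logDet u) y i j = hess (logDet u) y j i := fun i j => by
    conv_lhs => rw [← hess_symm hW hL hy]
    rfl
  simp only [Fin.sum_univ_three, Matrix.mul_apply, hG 1 0, hG 2 0, hG 2 1, hH 1 0, hH 2 0,
    hH 2 1] at key ⊢
  linear_combination key

/-- `∂_k ∂_b log det = tr (G ∂_k ∂_b D²u) - tr (G T_k G T_b)`. -/
lemma hess_logDet_apply (hy : y ∈ W) (k b : Fin 3) :
    hess (logDet u) y k b = (hinv u y * mpd k (mh u b) y).trace -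
      (hinv u y * mh u k y * hinv u y * mh u b y).trace := by
  show pd k (fun z => pd b (logDet u) z) y = _
  rw [pd_congr_on hu.isOpen hy (fun z hz => pd_logDet hu hz b),
    pd_trace hu.isOpen (hu.msm_hinv.mul (msm_mh' hu b)) hy,
    mpd_mul hu.isOpen hu.msm_hinv (msm_mh' hu b) hy, mpd_hinv' hu hy, Matrix.trace_add,
    Matrix.neg_mul, Matrix.trace_neg]
  ring

end

end Vale.Agent.P252.Three
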