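import Vale.Agent.P252.Rigidity.Three.Defs

/-!
# The degree-two flux certificate for affine maximal functions of three variables

Definitions only.  `τ = D log det D²u`, `v = D log η`, `w = -D log ψ`, with
`η = 1 - ũ/h`, `ψ = 1 + ((y - x₀)·Dũ - ũ)/h` and `ũ = u - u x₀ - p·(y - x₀)`.
The flux is `det D²u · G Ω Y`, `G = (D²u)⁻¹`, `Ω = η³⁰ ψ⁻² (det D²u)^(-3/8)`, and `Y` is
the fixed combination `fldY` of `⟨Z,Z'⟩ Z''`, `D²log det · Z` and `D³u(Z,Z')`.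
-/

namespace Vale.Agent.P252.Three

open scoped ContDiff Matrix
open Finset

noncomputable section

/-- The values, at a point with `D²u = 1`, that enter the divergence of the flux. -/
structure Jet where
  T : Fin 3 → Matrix (Fin 3) (Fin 3) ℝ
  H : Matrix (Fin 3) (Fin 3) ℝ
  t : Fin 3 → ℝ
  v : Fin 3 → ℝ
  w : Fin 3 → ℝ
  e₁ : ℝ
  e₂ : ℝ

namespace Jet

variable (J : Jet)

/-- The constraints satisfied by these values. -/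
structure Valid : Prop where
  symT : Sym3 J.T
  symH : J.Hᵀ = J.H
  trT : ∀ k, (J.T k).trace = J.t k
  trH : J.H.trace = 4 / 5 * (J.t ⬝ᵥ J.t)
  vw : J.v ⬝ᵥ J.w = J.e₁ - J.e₂

/-- The three covectors. -/
def Z : Fin 3 → Fin 3 → ℝ := ![J.t, J.v, J.w]

/-- `D³u(Z, ·, ·)`. -/
def C (z : Fin 3) : Matrix (Fin 3) (Fin 3) ℝ := ∑ k, J.Z z k • J.T k

/-- `∂ᵢ Z_a`, in entry `(i, a)`. -/
def dl : Fin 3 → Matrix (Fin 3) (Fin 3) ℝ :=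
  ![J.H, -Matrix.vecMulVec J.v J.v - J.e₁ • (1 : Matrix (Fin 3) (Fin 3) ℝ),
    J.C 2 + Matrix.vecMulVec J.w J.w - J.e₂ • (1 : Matrix (Fin 3) (Fin 3) ℝ)]

/-- `∂ᵢ Z^a`, in entry `(i, a)`. -/
def du (z : Fin 3) : Matrix (Fin 3) (Fin 3) ℝ := J.dl z - J.C z

/-- `D log Ω`. -/
def dW : Fin 3 → ℝ := (30 : ℝ) • J.v + (2 : ℝ) • J.w + (-3 / 8 : ℝ) • J.t

/-- The normalised divergence of `⟨Z_p, Z_q⟩ Z_z`. -/
def fieldK (z p q : Fin 3) : ℝ :=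
  (J.Z p ⬝ᵥ J.Z q) * ((J.dl z).trace + J.dW ⬝ᵥ J.Z z) +
    J.Z z ⬝ᵥ (J.dl p *ᵥ J.Z q) + J.Z z ⬝ᵥ (J.du q *ᵥ J.Z p)

/-- The normalised divergence of `H Z_z`. -/
def fieldH (z : Fin 3) : ℝ :=
  (J.C z * J.H).trace + 4 / 5 * (J.Z z ⬝ᵥ (((2 : ℝ) • J.H - J.C 0) *ᵥ J.t)) +
    (J.H * J.du z).trace + J.dW ⬝ᵥ (J.H *ᵥ J.Z z)

/-- The normalised divergence of `D³u(Z_p, Z_q, ·)`. -/
def fieldT (p q : Fin 3) : ℝ :=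
  J.Z p ⬝ᵥ (J.H *ᵥ J.Z q) + (J.C p * J.C q).trace + (J.C p * J.du q).trace +
    (J.C q * J.du p).trace + J.dW ⬝ᵥ (J.C p *ᵥ J.Z q)

/-- The normalised divergence of the certificate's flux. -/
def flux : ℝ :=
    ((114 : ℝ)) * J.fieldK 0 0 0 +
    ((14599 : ℝ)) * J.fieldK 0 0 1 +
    ((-372 : ℝ)) * J.fieldK 0 0 2 +
    ((833023 : ℝ)) * J.fieldK 0 1 1 +
    ((14709 : ℝ)) * J.fieldK 0 2 2 +
    ((3250 : ℝ)) * J.fieldK 1 0 0 +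
    ((519993 : ℝ)) * J.fieldK 1 0 1 +
    ((-24788 : ℝ)) * J.fieldK 1 0 2 +
    ((19020250 : ℝ)) * J.fieldK 1 1 1 +
    ((245775 : ℝ)) * J.fieldK 1 2 2 +
    ((1310 : ℝ)) * J.fieldK 2 0 0 +
    ((24319 : ℝ)) * J.fieldK 2 0 1 +
    ((3860 : ℝ)) * J.fieldK 2 0 2 +
    ((623610 : ℝ)) * J.fieldK 2 1 1 +
    ((69281 : ℝ)) * J.fieldK 2 2 2 +
    ((502 : ℝ)) * J.fieldH 0 +
    ((7320 : ℝ)) * J.fieldH 1 +
    ((309 : ℝ)) * J.fieldH 2 +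
    ((-378 : ℝ)) * J.fieldT 0 0 +
    ((-17718 : ℝ)) * J.fieldT 0 1 +
    ((-269 : ℝ)) * J.fieldT 0 2 +
    ((-791013 : ℝ)) * J.fieldT 1 1 +
    ((24432 : ℝ)) * J.fieldT 1 2 +
    ((4815 : ℝ)) * J.fieldT 2 2

end Jet

/-- The pointwise algebraic inequality. -/
def CertIneq : Prop :=
  ∃ ε C : ℝ, 0 < ε ∧ 0 ≤ C ∧ ∀ J : Jet, J.Valid →
    ε * (J.t ⬝ᵥ J.t) ^ 2 - C * (J.e₁ ^ 2 + J.e₂ ^ 2) ≤ J.flux

variable (u : (Fin 3 → ℝ) → ℝ) (x₀ p : Fin 3 → ℝ) (h : ℝ)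

/-- `u` minus the affine function with slope `p` equal to `u` at `x₀`. -/
def capFun (y : Fin 3 → ℝ) : ℝ := u y - u x₀ - p ⬝ᵥ (y - x₀)

/-- The closed cap. -/
def capSet (W : Set (Fin 3 → ℝ)) : Set (Fin 3 → ℝ) := {y | y ∈ W ∧ capFun u x₀ p y ≤ h}

/-- A compact cap balanced around `x₀`. -/
structure IsCap (W : Set (Fin 3 → ℝ)) : Prop where
  cpt : IsCompact (capSet u x₀ p h W)
  bal : ∀ y ∈ capSet u x₀ p h W, x₀ - (1 / 33 : ℝ) • (y - x₀) ∈ capSet u x₀ p h W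

/-- The gradient of the cap function. -/
def capGrad (y : Fin 3 → ℝ) : Fin 3 → ℝ := fun i => pd i (capFun u x₀ p) y

/-- `η = 1 - ũ/h`. -/
def etaF (y : Fin 3 → ℝ) : ℝ := 1 - capFun u x₀ p y / h

/-- `ψ = 1 + ((y - x₀)·Dũ - ũ)/h`. -/
def psiF (y : Fin 3 → ℝ) : ℝ :=
  1 + ((y - x₀) ⬝ᵥ capGrad u x₀ p y - capFun u x₀ p y) / h

/-- The covectors `τ`, `v`, `w`. -/
def covF : Fin 3 → (Fin 3 → ℝ) → Fin 3 → ℝ :=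
  ![fun y i => pd i (logDet u) y,
    fun y => (-(h * etaF u x₀ p h y)⁻¹) • capGrad u x₀ p y,
    fun y => (-(h * psiF u x₀ p h y)⁻¹) • (hess u y *ᵥ (y - x₀))]

/-- The field `⟨Z_p, Z_q⟩ Z_z`. -/
def fldK (z a b : Fin 3) (y : Fin 3 → ℝ) : Fin 3 → ℝ :=
  (covF u x₀ p h a y ⬝ᵥ (hinv u y *ᵥ covF u x₀ p h b y)) • covF u x₀ p h z y

/-- The field `D²log det D²u · Z_z`. -/
def fldH (z : Fin 3) (y : Fin 3 → ℝ) : Fin 3 → ℝ :=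
  hess (logDet u) y *ᵥ (hinv u y *ᵥ covF u x₀ p h z y)

/-- The field `D³u(Z_a, Z_b, ·)`. -/
def fldT (a b : Fin 3) (y : Fin 3 → ℝ) : Fin 3 → ℝ :=
  (∑ k, (hinv u y *ᵥ covF u x₀ p h a y) k • mh u k y) *ᵥ (hinv u y *ᵥ covF u x₀ p h b y)

/-- The certificate's covector field. -/
def fldY (y : Fin 3 → ℝ) : Fin 3 → ℝ :=
    ((114 : ℝ)) • fldK u x₀ p h 0 0 0 y +
    ((14599 : ℝ)) • fldK u x₀ p h 0 0 1 y +
    ((-372 : ℝ)) • fldK u x₀ p h 0 0 2 y +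
    ((833023 : ℝ)) • fldK u x₀ p h 0 1 1 y +
    ((14709 : ℝ)) • fldK u x₀ p h 0 2 2 y +
    ((3250 : ℝ)) • fldK u x₀ p h 1 0 0 y +
    ((519993 : ℝ)) • fldK u x₀ p h 1 0 1 y +
    ((-24788 : ℝ)) • fldK u x₀ p h 1 0 2 y +
    ((19020250 : ℝ)) • fldK u x₀ p h 1 1 1 y +
    ((245775 : ℝ)) • fldK u x₀ p h 1 2 2 y +
    ((1310 : ℝ)) • fldK u x₀ p h 2 0 0 y +
    ((24319 : ℝ)) • fldK u x₀ p h 2 0 1 y +
    ((3860 : ℝ)) • fldK u x₀ p h 2 0 2 y +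
    ((623610 : ℝ)) • fldK u x₀ p h 2 1 1 y +
    ((69281 : ℝ)) • fldK u x₀ p h 2 2 2 y +
    ((502 : ℝ)) • fldH u x₀ p h 0 y +
    ((7320 : ℝ)) • fldH u x₀ p h 1 y +
    ((309 : ℝ)) • fldH u x₀ p h 2 y +
    ((-378 : ℝ)) • fldT u x₀ p h 0 0 y +
    ((-17718 : ℝ)) • fldT u x₀ p h 0 1 y +
    ((-269 : ℝ)) • fldT u x₀ p h 0 2 y +
    ((-791013 : ℝ)) • fldT u x₀ p h 1 1 y +
    ((24432 : ℝ)) • fldT u x₀ p h 1 2 y +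
    ((4815 : ℝ)) • fldT u x₀ p h 2 2 y

/-- The weight `Ω`. -/
def weightF (y : Fin 3 → ℝ) : ℝ :=
  etaF u x₀ p h y ^ 30 * (psiF u x₀ p h y ^ 2)⁻¹ * (hess u y).det ^ (-(3 / 8 : ℝ))

/-- The flux `det D²u · G Ω Y`. -/
def fluxF (i : Fin 3) (y : Fin 3 → ℝ) : ℝ :=
  weightF u x₀ p h y * ((hess u y).det * (hinv u y *ᵥ fldY u x₀ p h y) i)

/-- The divergence inequality for the flux where `η, ψ > 0`. -/
def FluxBound : Prop :=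
  ∃ ε C : ℝ, 0 < ε ∧ 0 ≤ C ∧
    ∀ {W : Set (Fin 3 → ℝ)} {u : (Fin 3 → ℝ) → ℝ}, AM W u → ∀ x₀ p : Fin 3 → ℝ, ∀ h : ℝ, 0 < h →
      ∀ y ∈ W, 0 < etaF u x₀ p h y → 0 < psiF u x₀ p h y →
        weightF u x₀ p h y * (hess u y).det *
            (ε * qQ u y ^ 2 -
              C * (((h * etaF u x₀ p h y)⁻¹) ^ 2 + ((h * psiF u x₀ p h y)⁻¹) ^ 2)) ≤
          ∑ i, pd i (fluxF u x₀ p h i) y

end

end Vale.Agent.P252.Three
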